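import Vale.Agent.P329.Closure

/-!
P329: automata with one recurrent state.  If deleting one state leaves only self loops and
strictly ascending transitions, all languages of the automaton have height at most one.
-/

namespace Vale.Agent.P329

variable {α : Type} {Q : Type} (δ : Q → α → Q) (q0 : Q)

/-- The run never meets the distinguished state after its start. -/
def Avoids : Q → List α → Prop
  | _, [] => True
  | q, a :: w => δ q a ≠ q0 ∧ Avoids (δ q a) w

/-- Runs from one state to another avoiding the distinguished state. -/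
def avoidLang (q j : Q) : Language α := {w | Avoids δ q0 q w ∧ w.foldl δ q = j}

/-- Runs meeting the distinguished state for the first time at their end. -/
def hitLang (q : Q) : Language α :=
  {w | ∃ u a, w = u ++ [a] ∧ Avoids δ q0 q u ∧ δ (u.foldl δ q) a = q0}

variable {δ q0}

lemma avoids_append : ∀ (u v : List α) (q : Q),
    Avoids δ q0 q (u ++ v) ↔ Avoids δ q0 q u ∧ Avoids δ q0 (u.foldl δ q) v
  | [], v, q => by simp [Avoids]
  | a :: u, v, q => by
    simp only [List.cons_append, Avoids, List.foldl_cons, avoids_append u v, and_assoc]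

lemma avoids_loop {q : Q} (hq : q ≠ q0) : ∀ u : List α, (∀ a ∈ u, δ q a = q) →
    Avoids δ q0 q u ∧ u.foldl δ q = q
  | [], _ => ⟨trivial, rfl⟩
  | a :: u, h => by
    have e := h a (by simp)
    simp only [Avoids, List.foldl_cons, e]
    obtain ⟨h1, h2⟩ := avoids_loop hq u fun b hb => h b (by simp [hb])
    exact ⟨⟨hq, h1⟩, h2⟩

lemma split_first : ∀ (w : List α) (q : Q), Avoids δ q0 q w ∨ ∃ u a v, w = u ++ a :: v ∧
    Avoids δ q0 q u ∧ δ (u.foldl δ q) a = q0 ∧ v.foldl δ q0 = w.foldl δ q
  | [], _ => Or.inl trivial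
  | a :: w, q => by
    by_cases h : δ q a = q0
    · exact Or.inr ⟨[], a, w, rfl, trivial, h, by rw [List.foldl_cons, h]⟩
    · rcases split_first w (δ q a) with h' | ⟨u, b, v, rfl, h1, h2, h3⟩
      · exact Or.inl ⟨h, h'⟩
      · exact Or.inr ⟨a :: u, b, v, rfl, ⟨h, h1⟩, h2, by rw [h3, List.foldl_cons]⟩

lemma last_split (w : List α) :
    ∃ x y, w = x ++ y ∧ x.foldl δ q0 = q0 ∧ Avoids δ q0 q0 y := by
  induction w using List.reverseRecOn with
  | nil => exact ⟨[], [], rfl, rfl, trivial⟩
  | append_singleton w b ih =>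
    obtain ⟨x, y, rfl, hx, hy⟩ := ih
    by_cases hb : δ ((x ++ y).foldl δ q0) b = q0
    · exact ⟨x ++ y ++ [b], [], by simp, by rw [List.foldl_append]; exact hb, trivial⟩
    · refine ⟨x, y ++ [b], by simp, hx, (avoids_append _ _ _).mpr ⟨hy, ?_, trivial⟩⟩
      rwa [List.foldl_append, hx] at hb

/-- The ascending condition away from the distinguished state. -/
def Ascending (δ : Q → α → Q) (q0 : Q) (rk : Q → ℕ) : Prop :=
  ∀ q, q ≠ q0 → ∀ a, δ q a = q ∨ δ q a = q0 ∨ rk q < rk (δ q a)

variable [Finite α] [Finite Q] {rk : Q → ℕ}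

omit [Finite Q] in
theorem avoidLang_starFree (hasc : Ascending δ q0 rk) :
    ∀ (k : ℕ) (q : Q), q ≠ q0 → (∀ p, rk p < rk q + k) → ∀ j, HeightLE 0 (avoidLang δ q0 q j)
  | 0, q, _, hk, _ => absurd (hk q) (by simp)
  | k + 1, q, hq, hk, j => by
    let loops : Language α := {u | ∀ a ∈ u, δ q a = q}
    let stay : Language α := {u | u = [] ∧ q = j}
    let step : {a // δ q a ≠ q ∧ δ q a ≠ q0} → Language α := fun a =>
      ({[a.1]} : Language α) * avoidLang δ q0 (δ q a.1) j
    have hstay : HeightLE 0 stay := by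
      by_cases hqj : q = j
      · exact HeightLE.nilWord.of_eq fun u => by
          show u = [] ↔ u = [] ∧ q = j
          simp [hqj]
      · exact HeightLE.empty.of_eq fun u =>
          iff_of_false (Language.notMem_zero _) fun h => hqj h.2
    have hstep : HeightLE 0 (unionOf step) :=
      HeightLE.iUnion step fun a => (HeightLE.letter _).concat <| by
        refine avoidLang_starFree hasc k _ a.2.2 (fun p => ?_) j
        have h1 := hk p
        rcases hasc q hq a.1 with h | h | h
        · exact absurd h a.2.1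
        · exact absurd h a.2.2
        · omega
    refine ((HeightLE.allMem fun a => δ q a = q).concat (hstay.union hstep)).of_eq fun w => ?_
    show w ∈ loops * (stay + (unionOf step)) ↔
      Avoids δ q0 q w ∧ w.foldl δ q = j
    rw [Language.mem_mul]
    constructor
    · rintro ⟨u, hu, v, hv, rfl⟩
      obtain ⟨h1, h2⟩ := avoids_loop hq u hu
      rw [avoids_append, List.foldl_append, h2]
      rcases hv with ⟨rfl, hqj⟩ | ⟨⟨a, ha1, ha2⟩, hv⟩
      · exact ⟨⟨h1, trivial⟩, hqj⟩
      · obtain ⟨x, hx, y, ⟨hy1, hy2⟩, rfl⟩ := Language.mem_mul.mp hv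
        obtain rfl : x = [a] := hx
        exact ⟨⟨h1, ha2, hy1⟩, hy2⟩
    · intro hw
      induction w with
      | nil => exact ⟨[], fun _ h => absurd h List.not_mem_nil, [], Or.inl ⟨rfl, hw.2⟩, rfl⟩
      | cons a w ih =>
        obtain ⟨⟨h1, h2⟩, h3⟩ := hw
        by_cases ha : δ q a = q
        · rw [ha] at h2
          rw [List.foldl_cons, ha] at h3
          obtain ⟨u, hu, v, hv, rfl⟩ := ih ⟨h2, h3⟩
          refine ⟨a :: u, ?_, v, hv, rfl⟩
          intro b hb
          rcases List.mem_cons.mp hb with rfl | hb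
          exacts [ha, hu b hb]
        · exact ⟨[], fun _ h => absurd h List.not_mem_nil, a :: w, Or.inr ⟨⟨a, ha, h1⟩,
            Language.mem_mul.mpr ⟨[a], rfl, w, ⟨h2, h3⟩, rfl⟩⟩, rfl⟩

/-- The words keeping the rank of the run, avoiding the distinguished state, with a given end. -/
def stayLang (δ : Q → α → Q) (q0 : Q) (rk : Q → ℕ) : Q → Q → Language α := fun q j =>
  {w | (∀ u v, w = u ++ v → rk (u.foldl δ q) = rk q ∧ u.foldl δ q ≠ q0) ∧ w.foldl δ q = j}

/-- Runs whose rank never drops: only the stretches of constant rank have to be star-free. -/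
theorem avoidLang_starFree_of_stay (hmono : ∀ q, q ≠ q0 → ∀ a, δ q a = q0 ∨ rk q ≤ rk (δ q a))
    (hstay : ∀ q, q ≠ q0 → ∀ j, HeightLE 0 (stayLang δ q0 rk q j)) :
    ∀ (k : ℕ) (q : Q), q ≠ q0 → (∀ p, rk p < rk q + k) → ∀ j, HeightLE 0 (avoidLang δ q0 q j)
  | 0, q, _, hk, _ => absurd (hk q) (by simp)
  | k + 1, q, hq, hk, j => by
    let step : {pa : Q × α // rk pa.1 = rk q ∧ rk q < rk (δ pa.1 pa.2) ∧ δ pa.1 pa.2 ≠ q0} →
        Language α := fun pa => stayLang δ q0 rk q pa.1.1 *
          (({[pa.1.2]} : Language α) * avoidLang δ q0 (δ pa.1.1 pa.1.2) j)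
    have hstep : HeightLE 0 (unionOf step) := HeightLE.iUnion step fun pa =>
      (hstay q hq _).concat ((HeightLE.letter _).concat
        (avoidLang_starFree_of_stay hmono hstay k _ pa.2.2.2
          (fun p => by have := hk p; have := pa.2.2.1; omega) j))
    refine ((hstay q hq j).union hstep).of_eq fun w => ?_
    have avoids : ∀ (u : List α) (r : Q),
        (∀ x y, u = x ++ y → x.foldl δ r ≠ q0) → Avoids δ q0 r u := by
      intro u
      induction u with
      | nil => exact fun _ _ => trivial
      | cons a u ih =>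
        exact fun r h => ⟨by simpa using h [a] u rfl, ih _ fun x y e => by
          simpa using h (a :: x) y (by simp [e])⟩
    show w ∈ stayLang δ q0 rk q j ∨ w ∈ unionOf step ↔ Avoids δ q0 q w ∧ w.foldl δ q = j
    constructor
    · rintro (⟨h, hj⟩ | ⟨⟨⟨p, a⟩, h1, h2, h3⟩, hw⟩)
      · exact ⟨avoids w q fun x y e => (h x y e).2, hj⟩
      · obtain ⟨u, ⟨hu, hup⟩, x, hx, rfl⟩ := Language.mem_mul.mp hw
        obtain ⟨y, hy, v, ⟨hv1, hv2⟩, rfl⟩ := Language.mem_mul.mp hx
        obtain rfl : y = [a] := hy
        rw [avoids_append, List.foldl_append, hup]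
        exact ⟨⟨avoids u q fun x y e => (hu x y e).2, ⟨h3, hv1⟩⟩, hv2⟩
    · rintro ⟨hw, hj⟩
      by_cases h : ∀ u v, w = u ++ v → rk (u.foldl δ q) = rk q
      · refine Or.inl ⟨fun u v e => ⟨h u v e, ?_⟩, hj⟩
        subst e
        rcases List.eq_nil_or_concat u with rfl | ⟨u, a, rfl⟩
        · exact hq
        · rw [List.concat_eq_append, List.append_assoc, avoids_append] at hw
          rw [List.concat_eq_append, List.foldl_append]
          exact hw.2.1
      · right
        suffices h' : ∀ u : List α, Avoids δ q0 q u → (¬ ∀ x y, u = x ++ y →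
            rk (x.foldl δ q) = rk q) → ∃ x a y, u = x ++ a :: y ∧
              (∀ s t, x = s ++ t → rk (s.foldl δ q) = rk q ∧ s.foldl δ q ≠ q0) ∧
              rk q < rk (δ (x.foldl δ q) a) by
          obtain ⟨x, a, y, rfl, hx, hlt⟩ := h' w hw h
          obtain ⟨hxa, hay, hy⟩ := (avoids_append x (a :: y) q).mp hw
          rw [List.foldl_append] at hj
          exact ⟨⟨(x.foldl δ q, a), (hx x [] (by simp)).1, hlt, hay⟩, Language.mem_mul.mpr
            ⟨x, ⟨hx, rfl⟩, a :: y, Language.mem_mul.mpr ⟨[a], rfl, y, ⟨hy, hj⟩, rfl⟩, rfl⟩⟩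
        intro u
        induction u using List.reverseRecOn with
        | nil =>
          intro _ hn
          refine absurd (fun x y e => ?_) hn
          obtain ⟨rfl, rfl⟩ := List.append_eq_nil_iff.mp e.symm
          rfl
        | append_singleton u a ih =>
          intro hu hn
          obtain ⟨hu1, hu2, -⟩ := (avoids_append u [a] q).mp hu
          by_cases hc : ∀ x y, u = x ++ y → rk (x.foldl δ q) = rk q
          · have hs : ∀ s t, u = s ++ t → rk (s.foldl δ q) = rk q ∧ s.foldl δ q ≠ q0 := by
              intro s t e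
              refine ⟨hc s t e, ?_⟩
              rcases List.eq_nil_or_concat s with rfl | ⟨s, b, rfl⟩
              · exact hq
              · rw [e, List.concat_eq_append, List.append_assoc, avoids_append] at hu1
                rw [List.concat_eq_append, List.foldl_append]
                exact hu1.2.1
            refine ⟨u, a, [], rfl, hs, ?_⟩
            rcases hmono _ (hs u [] (by simp)).2 a with e | e
            · exact absurd e hu2
            · rw [(hs u [] (by simp)).1] at e
              refine e.lt_of_ne fun e' => hn fun x y hxy => ?_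
              rcases List.eq_nil_or_concat y with rfl | ⟨y, b, rfl⟩
              · rw [List.append_nil] at hxy
                rw [← hxy, List.foldl_append]
                exact e'.symm
              · rw [List.concat_eq_append, ← List.append_assoc] at hxy
                exact hc x y (List.append_inj' hxy rfl).1
          · obtain ⟨x, b, y, rfl, hx, hlt⟩ := ih hu1 hc
            exact ⟨x, b, y ++ [a], by simp, hx, hlt⟩

/-- All avoidance languages are star-free. -/
def Avoidable (δ : Q → α → Q) (q0 : Q) : Prop :=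
  ∀ q, q ≠ q0 → ∀ j, HeightLE 0 (avoidLang δ q0 q j)

lemma avoidLang_heightLE (hasc : Ascending δ q0 rk) {q : Q} (hq : q ≠ q0) (j : Q) :
    HeightLE 0 (avoidLang δ q0 q j) := by
  have := Fintype.ofFinite Q
  refine avoidLang_starFree hasc (Finset.univ.sup rk + 1) q hq (fun p => ?_) j
  have := Finset.le_sup (f := rk) (Finset.mem_univ p)
  omega

lemma Ascending.avoidable (hasc : Ascending δ q0 rk) : Avoidable δ q0 :=
  fun _ hq j => avoidLang_heightLE hasc hq j

lemma avoidable_of_stay (hmono : ∀ q, q ≠ q0 → ∀ a, δ q a = q0 ∨ rk q ≤ rk (δ q a))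
    (hstay : ∀ q, q ≠ q0 → ∀ j, HeightLE 0 (stayLang δ q0 rk q j)) : Avoidable δ q0 := by
  have := Fintype.ofFinite Q
  intro q hq j
  refine avoidLang_starFree_of_stay hmono hstay (Finset.univ.sup rk + 1) q hq (fun p => ?_) j
  have := Finset.le_sup (f := rk) (Finset.mem_univ p)
  omega

lemma hitLang_heightLE (hav : Avoidable δ q0) {q : Q} (hq : q ≠ q0) :
    HeightLE 0 (hitLang δ q0 q) := by
  let F : {pa : Q × α // δ pa.1 pa.2 = q0} → Language α := fun pa =>
    avoidLang δ q0 q pa.1.1 * ({[pa.1.2]} : Language α)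
  refine (HeightLE.iUnion F fun pa =>
    (hav q hq _).concat (HeightLE.letter _)).of_eq fun w => ?_
  constructor
  · rintro ⟨⟨⟨p, a⟩, hpa⟩, hw⟩
    obtain ⟨u, ⟨hu1, hu2⟩, x, hx, rfl⟩ := Language.mem_mul.mp hw
    obtain rfl : x = [a] := hx
    exact ⟨u, a, rfl, hu1, by rw [hu2]; exact hpa⟩
  · rintro ⟨u, a, rfl, hu, ha⟩
    exact ⟨⟨(u.foldl δ q, a), ha⟩, Language.mem_mul.mpr ⟨u, ⟨hu, rfl⟩, [a], rfl, rfl⟩⟩

/-- All languages of such an automaton have height at most one. -/
theorem run_good_of_avoidable (hav : Avoidable δ q0) (i : Q) :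
    Good (fun w : List α => w.foldl δ i) := by
  intro j
  -- the first returns
  let back : Language α := {w | ∃ a, w = [a] ∧ δ q0 a = q0}
  let out : {a // δ q0 a ≠ q0} → Language α := fun a =>
    ({[a.1]} : Language α) * hitLang δ q0 (δ q0 a.1)
  let first : Language α := back + (unionOf out)
  have hback : HeightLE 0 back := by
    refine (HeightLE.iUnion (fun a : {a // δ q0 a = q0} => ({[a.1]} : Language α))
      fun a => HeightLE.letter _).of_eq fun w => ?_
    exact ⟨fun ⟨a, ha⟩ => ⟨a.1, ha, a.2⟩, fun ⟨a, ha, h⟩ => ⟨⟨a, h⟩, ha⟩⟩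
  have hfirst : HeightLE 0 first :=
    hback.union (HeightLE.iUnion out fun a =>
      (HeightLE.letter _).concat (hitLang_heightLE hav a.2))
  have first_sound : ∀ x ∈ first, x.foldl δ q0 = q0 := by
    rintro x (⟨a, rfl, ha⟩ | ⟨⟨a, ha⟩, hx⟩)
    · exact ha
    · obtain ⟨y, hy, z, ⟨u, b, rfl, -, hb⟩, rfl⟩ := Language.mem_mul.mp hx
      obtain rfl : y = [a] := hy
      simp [hb]
  have star_sound : ∀ x ∈ KStar.kstar first, x.foldl δ q0 = q0 := by
    intro x hx
    obtain ⟨L, rfl, hL⟩ := Language.mem_kstar.mp hx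
    clear hx
    induction L with
    | nil => rfl
    | cons y L ih =>
      rw [List.flatten_cons, List.foldl_append, first_sound y (hL y (by simp))]
      exact ih fun z hz => hL z (by simp [hz])
  have star_complete : ∀ (k : ℕ) (x : List α), x.length ≤ k → x.foldl δ q0 = q0 →
      x ∈ KStar.kstar first := by
    intro k
    induction k with
    | zero =>
      intro x hx _
      obtain rfl := List.eq_nil_of_length_eq_zero (Nat.le_zero.mp hx)
      exact Language.nil_mem_kstar _
    | succ k ih =>
      intro x hx hfx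
      match x, hx, hfx with
      | [], _, _ => exact Language.nil_mem_kstar _
      | a :: x, hx, hfx =>
        have one : ∀ y z, y ∈ first → z ∈ KStar.kstar first → y ++ z ∈ KStar.kstar first := by
          intro y z hy hz
          obtain ⟨L, rfl, hL⟩ := Language.mem_kstar.mp hz
          exact Language.join_mem_kstar (L := y :: L) fun t ht => by
            rcases List.mem_cons.mp ht with rfl | ht
            exacts [hy, hL t ht]
        simp only [List.length_cons] at hx
        rw [List.foldl_cons] at hfx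
        by_cases ha : δ q0 a = q0
        · rw [ha] at hfx
          exact one [a] x (Or.inl ⟨a, rfl, ha⟩) (ih x (by omega) hfx)
        · rcases split_first (δ := δ) (q0 := q0) x (δ q0 a) with h | ⟨u, b, v, rfl, h1, h2, h3⟩
          · exfalso
            rcases List.eq_nil_or_concat x with rfl | ⟨y, b, rfl⟩
            · exact ha hfx
            · rw [List.concat_eq_append, avoids_append] at h
              rw [List.concat_eq_append, List.foldl_append] at hfx
              exact h.2.1 hfx
          · have hv : v.foldl δ q0 = q0 := h3.trans hfx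
            have := one (a :: (u ++ [b])) v
              (Or.inr ⟨⟨a, ha⟩, Language.mem_mul.mpr ⟨[a], rfl, u ++ [b],
                ⟨u, b, rfl, h1, h2⟩, rfl⟩⟩)
              (ih v (by simp at hx; omega) hv)
            simpa using this
  -- the runs from the distinguished state
  let tail0 : Language α := {w | w = [] ∧ q0 = j}
  let tail : Language α := tail0 + unionOf (fun a : {a // δ q0 a ≠ q0} =>
    ({[a.1]} : Language α) * avoidLang δ q0 (δ q0 a.1) j)
  have htail : HeightLE 0 tail := by
    refine HeightLE.union ?_ (HeightLE.iUnion _ fun a =>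
      (HeightLE.letter _).concat (hav _ a.2 j))
    by_cases hj : q0 = j
    · exact HeightLE.nilWord.of_eq fun u => by
        show u = [] ↔ u = [] ∧ q0 = j
        simp [hj]
    · exact HeightLE.empty.of_eq fun u =>
        iff_of_false (Language.notMem_zero _) fun h => hj h.2
  let fromQ0 : Language α := {w | w.foldl δ q0 = j}
  have hfromQ0 : HeightLE 1 fromQ0 := by
    refine ((HeightLE.star hfirst).concat (htail.mono (Nat.zero_le _))).of_eq fun w => ?_
    show w ∈ KStar.kstar first * tail ↔ w.foldl δ q0 = j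
    rw [Language.mem_mul]
    constructor
    · rintro ⟨x, hx, y, hy, rfl⟩
      rw [List.foldl_append, star_sound x hx]
      rcases hy with ⟨rfl, hj⟩ | ⟨a, hy⟩
      · exact hj
      · obtain ⟨s, hs, t, ⟨-, ht⟩, rfl⟩ := Language.mem_mul.mp hy
        obtain rfl : s = [a.1] := hs
        exact ht
    · intro hw
      obtain ⟨x, y, rfl, hx, hy⟩ := last_split (δ := δ) (q0 := q0) w
      rw [List.foldl_append, hx] at hw
      refine ⟨x, star_complete _ x le_rfl hx, y, ?_, rfl⟩
      match y, hy, hw with
      | [], _, hw => exact Or.inl ⟨rfl, hw⟩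
      | a :: y, hy, hw =>
        exact Or.inr ⟨⟨a, hy.1⟩, Language.mem_mul.mpr ⟨[a], rfl, y, ⟨hy.2, hw⟩, rfl⟩⟩
  by_cases hi : i = q0
  · subst hi
    exact hfromQ0
  · refine (((hav _ hi j).mono (Nat.zero_le _)).union
      (((hitLang_heightLE hav hi).mono (Nat.zero_le _)).concat hfromQ0)).of_eq fun w => ?_
    show w ∈ avoidLang δ q0 i j ∨ w ∈ hitLang δ q0 i * fromQ0 ↔
      w.foldl δ i = j
    rw [Language.mem_mul]
    constructor
    · rintro (⟨-, h⟩ | ⟨x, ⟨u, a, rfl, -, ha⟩, v, hv, rfl⟩)
      · exact h
      · have hv' : v.foldl δ q0 = j := hv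
        simp [ha, hv']
    · intro hw
      rcases split_first (δ := δ) (q0 := q0) w i with h | ⟨u, a, v, rfl, h1, h2, h3⟩
      · exact Or.inl ⟨h, hw⟩
      · exact Or.inr ⟨u ++ [a], ⟨u, a, rfl, h1, h2⟩, v, h3.trans hw, by simp⟩

/-- All languages of an ascending automaton have height at most one. -/
theorem run_good (hasc : Ascending δ q0 rk) (i : Q) : Good (fun w : List α => w.foldl δ i) :=
  run_good_of_avoidable hasc.avoidable i

end Vale.Agent.P329
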