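import Mathlib.Computability.Language

/-!
P329: generalized regular expressions and their star height.
-/

namespace Vale.Agent.P329

/-- Generalized regular expressions over an alphabet. -/
inductive GenExp (α : Type) : Type where
  | zero : GenExp α
  | one : GenExp α
  | letter : α → GenExp α
  | union : GenExp α → GenExp α → GenExp α
  | concat : GenExp α → GenExp α → GenExp α
  | compl : GenExp α → GenExp α
  | star : GenExp α → GenExp α

variable {α : Type}

/-- The language denoted by an expression; complements are taken among all words. -/
def GenExp.lang : GenExp α → Language α
  | .zero => 0
  | .one => 1
  | .letter a => ({[a]} : Set (List α))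
  | .union P Q => P.lang + Q.lang
  | .concat P Q => P.lang * Q.lang
  | .compl P => {w | w ∉ P.lang}
  | .star P => KStar.kstar P.lang

/-- The star height of an expression. -/
def GenExp.height : GenExp α → ℕ
  | .zero => 0
  | .one => 0
  | .letter _ => 0
  | .union P Q => max P.height Q.height
  | .concat P Q => max P.height Q.height
  | .compl P => P.height
  | .star P => P.height + 1

/-- The language is denoted by an expression of star height at most `k`. -/
def HeightLE (k : ℕ) (L : Language α) : Prop :=
  ∃ e : GenExp α, e.height ≤ k ∧ e.lang = L

end Vale.Agent.P329
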