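import Mathlib
import Vale.Agent.P329.Defs

/-!
P329: closure properties of languages of bounded generalized star height.
-/

namespace Vale.Agent.P329

variable {α : Type} {k l : ℕ} {L M : Language α}

/-- The union of a family of languages. -/
def unionOf {ι : Type*} (F : ι → Language α) : Language α := {w | ∃ i, w ∈ F i}

namespace HeightLE

lemma mono (h : HeightLE k L) (hkl : k ≤ l) : HeightLE l L :=
  h.imp fun _ he => ⟨he.1.trans hkl, he.2⟩

lemma of_eq (h : HeightLE k L) (e : ∀ w, w ∈ L ↔ w ∈ M) : HeightLE k M := by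
  rwa [← Language.ext e]

lemma empty : HeightLE k (0 : Language α) := ⟨.zero, Nat.zero_le _, rfl⟩

lemma nilWord : HeightLE k (1 : Language α) := ⟨.one, Nat.zero_le _, rfl⟩

lemma letter (a : α) : HeightLE k ({[a]} : Language α) := ⟨.letter a, Nat.zero_le _, rfl⟩

lemma union (h : HeightLE k L) (h' : HeightLE k M) : HeightLE k (L + M) := by
  obtain ⟨e, he, rfl⟩ := h
  obtain ⟨f, hf, rfl⟩ := h'
  exact ⟨.union e f, max_le he hf, rfl⟩

lemma concat (h : HeightLE k L) (h' : HeightLE k M) : HeightLE k (L * M) := by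
  obtain ⟨e, he, rfl⟩ := h
  obtain ⟨f, hf, rfl⟩ := h'
  exact ⟨.concat e f, max_le he hf, rfl⟩

lemma compl (h : HeightLE k L) : HeightLE k ({w | w ∉ L} : Language α) := by
  obtain ⟨e, he, rfl⟩ := h
  exact ⟨.compl e, he, rfl⟩

lemma star (h : HeightLE k L) : HeightLE (k + 1) (KStar.kstar L) := by
  obtain ⟨e, he, rfl⟩ := h
  exact ⟨.star e, Nat.succ_le_succ he, rfl⟩

lemma full : HeightLE k ({w | True} : Language α) :=
  (empty (k := k)).compl.of_eq fun _ => iff_of_true (Language.notMem_zero _) trivial

lemma inter (h : HeightLE k L) (h' : HeightLE k M) :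
    HeightLE k ({w | w ∈ L ∧ w ∈ M} : Language α) := by
  refine (h.compl.union h'.compl).compl.of_eq fun w => ?_
  show ¬ (w ∉ L ∨ w ∉ M) ↔ w ∈ L ∧ w ∈ M
  tauto

lemma biUnion {ι : Type*} (s : List ι) (F : ι → Language α) (h : ∀ i ∈ s, HeightLE k (F i)) :
    HeightLE k ({w | ∃ i ∈ s, w ∈ F i} : Language α) := by
  induction s with
  | nil => exact empty.of_eq fun w => iff_of_false (Language.notMem_zero _) (by rintro ⟨i, hi, -⟩; simp at hi)
  | cons i s ih =>
    refine ((h i (by simp)).union (ih fun j hj => h j (by simp [hj]))).of_eq fun w => ?_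
    show (w ∈ F i ∨ ∃ j ∈ s, w ∈ F j) ↔ ∃ j ∈ i :: s, w ∈ F j
    simp

lemma iUnion {ι : Type*} [Finite ι] (F : ι → Language α) (h : ∀ i, HeightLE k (F i)) :
    HeightLE k (unionOf F) := by
  have := Fintype.ofFinite ι
  refine (biUnion (Finset.univ : Finset ι).toList F fun i _ => h i).of_eq fun w => ?_
  show (∃ i ∈ (Finset.univ : Finset ι).toList, w ∈ F i) ↔ ∃ i, w ∈ F i
  simp

/-- The language of all words. -/
def allWords (α : Type) : Language α := {w | True}

/-- Words with all letters in a given set: star-free. -/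
lemma allMem [Finite α] (p : α → Prop) : HeightLE k ({w | ∀ a ∈ w, p a} : Language α) := by
  let F : {a // ¬ p a} → Language α := fun a =>
    allWords α * (({[a.1]} : Language α) * allWords α)
  have hb : HeightLE k (unionOf F) :=
    iUnion F fun a => (full : HeightLE k (allWords α)).concat
      ((letter _).concat (full : HeightLE k (allWords α)))
  refine hb.compl.of_eq fun w => ?_
  show (¬ ∃ a, w ∈ F a) ↔ ∀ a ∈ w, p a
  constructor
  · intro h a ha
    by_contra hp
    obtain ⟨u, v, rfl⟩ := List.append_of_mem ha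
    exact h ⟨⟨a, hp⟩, Language.mem_mul.mpr ⟨u, trivial, [a] ++ v,
      Language.mem_mul.mpr ⟨[a], rfl, v, trivial, rfl⟩, by simp⟩⟩
  · rintro h ⟨⟨a, ha⟩, hw⟩
    obtain ⟨u, -, x, hx, rfl⟩ := Language.mem_mul.mp hw
    obtain ⟨y, hy, v, -, rfl⟩ := Language.mem_mul.mp hx
    obtain rfl : y = [a] := hy
    exact ha (h a (by simp))

end HeightLE

/-- All fibres of the function have height at most one. -/
def Good {β : Type*} (F : List α → β) : Prop :=
  ∀ b, HeightLE 1 ({w | F w = b} : Language α)

namespace Good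

variable {β γ : Type*} {F : List α → β} {G : List α → γ}

lemma congr {F' : List α → β} (h : Good F) (e : ∀ w, F w = F' w) : Good F' :=
  fun b => (h b).of_eq fun w => by show F w = b ↔ F' w = b; rw [e]

lemma const (b : β) : Good (fun _ : List α => b) := by
  intro c
  by_cases hbc : b = c
  · exact HeightLE.full.of_eq fun _ => iff_of_true trivial hbc
  · exact HeightLE.empty.of_eq fun _ => iff_of_false (Language.notMem_zero _) hbc

lemma prodMk (h : Good F) (h' : Good G) : Good (fun w => (F w, G w)) := by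
  rintro ⟨b, c⟩
  exact ((h b).inter (h' c)).of_eq fun w =>
    show (F w = b ∧ G w = c) ↔ (F w, G w) = (b, c) from Prod.mk.injEq .. ▸ Iff.rfl

lemma comp [Finite β] (h : Good F) (f : β → γ) : Good (fun w => f (F w)) := by
  intro c
  refine (HeightLE.iUnion (fun b : {b // f b = c} => ({w | F w = b.1} : Language α))
    fun b => h b.1).of_eq fun w => ?_
  constructor
  · rintro ⟨⟨b, hb⟩, hw⟩
    have : F w = b := hw
    show f (F w) = c
    rw [this, hb]
  · exact fun hw => ⟨⟨F w, hw⟩, rfl⟩

lemma comp₂ [Finite β] [Finite γ] {δ : Type*} (h : Good F) (h' : Good G) (f : β → γ → δ) :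
    Good (fun w => f (F w) (G w)) :=
  (h.prodMk h').comp fun p => f p.1 p.2

lemma listProd {H : Type*} [Monoid H] [Finite H] {ι : Type*} (s : List ι) (F : ι → List α → H)
    (h : ∀ i ∈ s, Good (F i)) : Good (fun w => (s.map fun i => F i w).prod) := by
  induction s with
  | nil => exact (const 1).congr fun _ => by simp
  | cons i s ih =>
    exact ((h i (by simp)).comp₂ (ih fun j hj => h j (by simp [hj])) (· * ·)).congr fun _ => by simp

end Good

end Vale.Agent.P329
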