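import Vale.Agent.P329.Automaton

/-!
P329: subword counts of length at most three modulo `n` have height at most one.
-/

namespace Vale.Agent.P329

variable {α : Type}

/-- The sum over all positions of a weight depending on the prefix and the letter. -/
def psum {A : Type*} [AddCommMonoid A] : (List α → α → A) → List α → A
  | _, [] => 0
  | ψ, a :: w => ψ [] a + psum (fun u x => ψ (a :: u) x) w

lemma psum_append {A : Type*} [AddCommMonoid A] : ∀ (ψ : List α → α → A) (w : List α) (a : α),
    psum ψ (w ++ [a]) = psum ψ w + ψ w a
  | ψ, [], a => by simp [psum]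
  | ψ, b :: w, a => by
    simp only [List.cons_append, psum, psum_append _ w a, add_assoc]

/-- The number of letters satisfying a predicate. -/
def cnt (p : α → Bool) (w : List α) : ℕ := w.countP p

lemma cnt_append (p : α → Bool) (w : List α) (a : α) :
    cnt p (w ++ [a]) = cnt p w + if p a then 1 else 0 := by
  simp [cnt, List.countP_append, List.countP_cons]

section Machine

variable (m N : ℕ) (p q : α → Bool)

/-- The cycle automaton. -/
def step (i : ZMod N) (a : α) : ZMod N :=
  if p a then i + 1 else if q a && decide (m ∣ i.val) then i + (m : ZMod N) else i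

/-- The number of marked positions whose class is divisible. -/
def hits (c : ℕ) (w : List α) : ℕ :=
  psum (fun u x => if q x && decide (m ∣ c + cnt p u) then 1 else 0) w

variable {m N p q}

lemma val_add_le [NeZero N] (i : ZMod N) (d : ℕ) (h0 : 0 < d) (h : i.val + d ≤ N) :
    i + (d : ZMod N) = 0 ∨ i.val < (i + (d : ZMod N)).val := by
  rcases h.eq_or_lt with h | h
  · left
    have e : ((i.val + d : ℕ) : ZMod N) = 0 := by rw [h, ZMod.natCast_self]
    rwa [Nat.cast_add, ZMod.natCast_zmod_val] at e
  · right
    have e : i + (d : ZMod N) = ((i.val + d : ℕ) : ZMod N) := by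
      rw [Nat.cast_add, ZMod.natCast_zmod_val]
    rw [e, ZMod.val_natCast, Nat.mod_eq_of_lt h]
    omega

lemma step_ascending [NeZero N] (hm : 0 < m) (hmN : m ∣ N) :
    Ascending (step m N p q) 0 ZMod.val := by
  intro i _ a
  have hi := ZMod.val_lt i
  unfold step
  split_ifs with h1 h2
  · have := val_add_le i 1 Nat.one_pos (by omega)
    simpa using Or.inr this
  · simp only [Bool.and_eq_true, decide_eq_true_eq] at h2
    obtain ⟨t, ht⟩ := h2.2
    obtain ⟨s, rfl⟩ := hmN
    refine Or.inr (val_add_le i m hm ?_)
    have : t < s := by
      rw [ht] at hi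
      exact Nat.lt_of_mul_lt_mul_left hi
    calc i.val + m = m * (t + 1) := by rw [ht]; ring
      _ ≤ m * s := Nat.mul_le_mul_left m this
  · exact Or.inl rfl

lemma foldl_step [NeZero N] (hmN : m ∣ N) (hpq : ∀ a, p a = true → q a = false) (c : ℕ)
    (w : List α) : w.foldl (step m N p q) (c : ZMod N) =
      ((c + cnt p w + m * hits m p q c w : ℕ) : ZMod N) := by
  induction w using List.reverseRecOn with
  | nil => simp [cnt, hits, psum]
  | append_singleton w a ih =>
    rw [List.foldl_append, ih, List.foldl_cons, List.foldl_nil,
      show hits m p q c (w ++ [a]) = hits m p q c w + _ from psum_append _ _ _, cnt_append]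
    have e : (m ∣ (((c + cnt p w + m * hits m p q c w : ℕ) : ZMod N)).val) ↔
        m ∣ c + cnt p w := by
      rw [ZMod.val_natCast, Nat.dvd_mod_iff hmN]
      exact (Nat.dvd_add_left (dvd_mul_right _ _))
    unfold step
    cases hp : p a
    · cases hq : q a <;> simp only [Bool.false_and, Bool.true_and, decide_eq_true_eq, e,
        Bool.false_eq_true, if_false] <;> (try split_ifs) <;> push_cast <;> ring
    · simp only [hpq a hp, Bool.false_and, Bool.false_eq_true, if_false, if_true]
      push_cast
      ring

theorem cnt_mod_good [Finite α] (p : α → Bool) (M : ℕ) (hM : 0 < M) :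
    Good (fun w : List α => (cnt p w : ZMod M)) := by
  have : NeZero M := ⟨hM.ne'⟩
  refine (run_good (step_ascending (p := p) (q := fun _ => false) hM dvd_rfl)
    ((0 : ℕ) : ZMod M)).congr fun w => ?_
  rw [foldl_step dvd_rfl (fun _ _ => rfl)]
  simp

theorem hits_good [Finite α] {n : ℕ} (hn : 0 < n) (hm : 0 < m)
    (hpq : ∀ a, p a = true → q a = false) (c : ℕ) :
    Good (fun w : List α => (hits m p q c w : ZMod n)) := by
  have : NeZero (m * n) := ⟨(Nat.mul_pos hm hn).ne'⟩
  have h1 := run_good (step_ascending (N := m * n) (p := p) (q := q) hm (dvd_mul_right _ _))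
    ((c : ℕ) : ZMod (m * n))
  have h2 := cnt_mod_good p (m * n) (Nat.mul_pos hm hn)
  refine (h1.comp₂ h2 fun x B => (((x - (c : ZMod (m * n)) - B).val / m : ℕ) : ZMod n)).congr
    fun w => ?_
  rw [foldl_step (dvd_mul_right _ _) hpq]
  have e : ((c + cnt p w + m * hits m p q c w : ℕ) : ZMod (m * n)) - (c : ZMod (m * n)) -
      (cnt p w : ZMod (m * n)) = ((m * hits m p q c w : ℕ) : ZMod (m * n)) := by
    push_cast
    ring
  rw [e, ZMod.val_natCast, Nat.mul_mod_mul_left, Nat.mul_div_cancel_left _ hm,
    ZMod.natCast_mod]

theorem marker_good [Finite α] {n : ℕ} (hn : 0 < n) {m : ℕ} (hm : 0 < m) {φ : ℕ → ZMod n}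
    (hφ : Function.Periodic φ m) (hpq : ∀ a, p a = true → q a = false) :
    Good (fun w : List α => psum (fun u x => if q x then φ (cnt p u) else 0) w) := by
  have : NeZero n := ⟨hn.ne'⟩
  have key : ∀ w : List α,
      ((List.range m).map fun r => φ r * (hits m p q (m - r) w : ZMod n)).sum =
        psum (fun u x => if q x then φ (cnt p u) else 0) w := by
    intro w
    induction w using List.reverseRecOn with
    | nil => simp [hits, psum]
    | append_singleton w a ih =>
      simp only [hits, psum_append, Nat.cast_add, mul_add, List.sum_map_add] at ih ⊢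
      rw [ih]
      congr 1
      cases hq : q a
      · simp
      · have hr : ∀ r ∈ List.range m,
            (if true && decide (m ∣ m - r + cnt p w) then 1 else 0 : ℕ) =
              if r = cnt p w % m then 1 else 0 := by
          intro r hr
          rw [List.mem_range] at hr
          have : m ∣ m - r + cnt p w ↔ r = cnt p w % m := by
            have e : ((m - r + cnt p w : ℕ) : ZMod m) = (cnt p w : ZMod m) - (r : ZMod m) := by
              rw [Nat.cast_add, Nat.cast_sub hr.le, ZMod.natCast_self]
              ring
            rw [← ZMod.natCast_eq_zero_iff, e, sub_eq_zero, ZMod.natCast_eq_natCast_iff',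
              Nat.mod_eq_of_lt hr, eq_comm]
          simp [this]
        rw [List.map_congr_left (fun r hr' => by rw [hr r hr']), if_pos rfl,
          ← hφ.map_mod_nat (cnt p w)]
        have : ∀ k, k < m → ((List.range m).map fun r =>
            φ r * ((if r = k then 1 else 0 : ℕ) : ZMod n)).sum = φ k := by
          intro k hk
          rw [← List.sum_toFinset _ List.nodup_range, Finset.sum_eq_single k]
          · simp
          · intro b _ hb
            simp [hb]
          · intro h
            exact absurd (List.mem_toFinset.mpr (List.mem_range.mpr hk)) h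
        exact this _ (Nat.mod_lt _ hm)
  refine Good.congr ?_ key
  have hsum : ∀ l : List ℕ, Good (fun w : List α =>
      (l.map fun r => φ r * (hits m p q (m - r) w : ZMod n)).sum) := by
    intro l
    induction l with
    | nil => exact Good.const 0
    | cons r l ih =>
      exact ((hits_good hn hm hpq (m - r)).comp₂ ih fun x y => φ r * x + y).congr fun w => by simp
  exact hsum _

end Machine

lemma choose_periodic (n : ℕ) : ∀ k,
    Function.Periodic (fun x : ℕ => (x.choose k : ZMod n)) (n ^ k)
  | 0 => fun x => by simp
  | k + 1 => by
    intro x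
    have ih := choose_periodic n k
    have hstep : ∀ y, ((y + n ^ k).choose (k + 1) : ZMod n) - (y.choose (k + 1) : ZMod n) =
        ((n ^ k).choose (k + 1) : ZMod n) := by
      intro y
      induction y with
      | zero => simp
      | succ y hy =>
        rw [← hy, show y + 1 + n ^ k = (y + n ^ k) + 1 by ring, Nat.choose_succ_succ',
          Nat.choose_succ_succ']
        have := ih y
        push_cast
        simp only at this
        rw [this]
        ring
    have hmul : ∀ j, ((x + j * n ^ k).choose (k + 1) : ZMod n) =
        (x.choose (k + 1) : ZMod n) + (j : ZMod n) * ((n ^ k).choose (k + 1) : ZMod n) := by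
      intro j
      induction j with
      | zero => simp
      | succ j hj =>
        have := hstep (x + j * n ^ k)
        rw [show x + (j + 1) * n ^ k = x + j * n ^ k + n ^ k by ring]
        push_cast
        linear_combination this + hj
    have := hmul n
    simp only [ZMod.natCast_self, zero_mul, add_zero] at this
    rw [show x + n ^ (k + 1) = x + n * n ^ k by ring]
    exact this

variable [Finite α] {n : ℕ}

theorem choose_cnt_good (hn : 0 < n) (p : α → Bool) (k : ℕ) :
    Good (fun w : List α => ((cnt p w).choose k : ZMod n)) := by
  have hM : 0 < n ^ k := Nat.pow_pos hn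
  have : NeZero (n ^ k) := ⟨hM.ne'⟩
  refine ((cnt_mod_good p _ hM).comp fun z => ((z.val.choose k : ℕ) : ZMod n)).congr fun w => ?_
  rw [ZMod.val_natCast]
  exact (choose_periodic n k).map_mod_nat (cnt p w)

theorem choose_marker_good (hn : 0 < n) (p q : α → Bool) (hpq : ∀ a, p a = true → q a = false)
    (k : ℕ) : Good (fun w : List α =>
      psum (fun u x => if q x then ((cnt p u).choose k : ZMod n) else 0) w) :=
  marker_good hn (Nat.pow_pos hn) (choose_periodic n k) hpq

variable [DecidableEq α]

/-- The test for one letter. -/
def eqb (a : α) : α → Bool := fun x => decide (x = a)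

/-- The number of occurrences of a two-letter subword. -/
def sub2 (a b : α) (w : List α) : ℕ :=
  psum (fun u x => if x = b then cnt (eqb a) u else 0) w

/-- The number of occurrences of a three-letter subword. -/
def sub3 (a b c : α) (w : List α) : ℕ :=
  psum (fun u x => if x = c then sub2 a b u else 0) w

omit [Finite α] [DecidableEq α] in
lemma cast_psum {A B : Type*} [AddCommMonoid A] [AddCommMonoid B] (f : A →+ B) :
    ∀ (ψ : List α → α → A) (w : List α), f (psum ψ w) = psum (fun u x => f (ψ u x)) w
  | _, [] => map_zero f
  | ψ, a :: w => by simp only [psum, map_add, cast_psum f _ w]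

omit [Finite α] in
lemma two_self (a : α) (w : List α) : sub2 a a w = (cnt (eqb a) w).choose 2 := by
  induction w using List.reverseRecOn with
  | nil => simp [sub2, psum, cnt]
  | append_singleton w x ih =>
    simp only [sub2, psum_append, cnt_append, eqb, decide_eq_true_eq] at ih ⊢
    rw [ih]
    split_ifs with h
    · rw [Nat.choose_succ_succ', Nat.choose_one_right]; ring
    · rfl

omit [Finite α] in
lemma three_self (a : α) (w : List α) : sub3 a a a w = (cnt (eqb a) w).choose 3 := by
  induction w using List.reverseRecOn with
  | nil => simp [sub3, psum, cnt]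
  | append_singleton w x ih =>
    have h2 := two_self a w
    simp only [sub3, psum_append, cnt_append, eqb, decide_eq_true_eq] at ih h2 ⊢
    rw [ih, h2]
    split_ifs with h
    · rw [Nat.choose_succ_succ' _ 2]; ring
    · rfl

omit [Finite α] in
lemma two_shuffle {a b : α} (hab : a ≠ b) (w : List α) :
    sub2 a b w + sub2 b a w = cnt (eqb a) w * cnt (eqb b) w := by
  induction w using List.reverseRecOn with
  | nil => simp [sub2, psum, cnt]
  | append_singleton w x ih =>
    simp only [sub2, psum_append, cnt_append, eqb, decide_eq_true_eq] at ih ⊢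
    rcases eq_or_ne x a with rfl | hxa
    · simp [hab] at ih ⊢; linarith
    · rcases eq_or_ne x b with rfl | hxb
      · simp [hxa] at ih ⊢; linarith
      · simp [hxa, hxb] at ih ⊢; linarith

omit [Finite α] in
lemma three_shuffle {a b : α} (hab : a ≠ b) (w : List α) :
    sub3 b a a w + sub3 a b a w + sub3 a a b w =
      cnt (eqb b) w * (cnt (eqb a) w).choose 2 := by
  induction w using List.reverseRecOn with
  | nil => simp [sub3, psum, cnt]
  | append_singleton w x ih =>
    have h2 := two_self a w
    have h3 := two_shuffle hab w
    simp only [sub3, psum_append, cnt_append, eqb, decide_eq_true_eq] at ih h2 h3 ⊢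
    rcases eq_or_ne x a with rfl | hxa
    · simp [hab, Nat.choose_succ_succ', Nat.choose_one_right] at ih h2 h3 ⊢; linarith
    · rcases eq_or_ne x b with rfl | hxb
      · simp [hxa] at ih h2 h3 ⊢; linarith
      · simp [hxa, hxb] at ih ⊢; linarith

omit [Finite α] in
lemma three_middle {a b c : α} (hab : a ≠ b) (hcb : c ≠ b) (w : List α) :
    sub3 a b c w + psum (fun u x => if x = b then cnt (eqb a) u * cnt (eqb c) u else 0) w =
      cnt (eqb c) w * sub2 a b w := by
  induction w using List.reverseRecOn with
  | nil => simp [sub3, psum, cnt, sub2]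
  | append_singleton w x ih =>
    simp only [sub3, sub2, psum_append, cnt_append, eqb, decide_eq_true_eq] at ih ⊢
    rcases eq_or_ne x b with rfl | hxb
    · simp [hcb.symm] at ih ⊢; linarith
    · rcases eq_or_ne x c with rfl | hxc
      · simp [hxb] at ih ⊢; linarith
      · simp [hxb, hxc] at ih ⊢; linarith

omit [Finite α] in
lemma cnt_pair {a c : α} (hac : a ≠ c) (w : List α) :
    cnt (fun x => eqb a x || eqb c x) w = cnt (eqb a) w + cnt (eqb c) w := by
  induction w using List.reverseRecOn with
  | nil => simp [cnt]
  | append_singleton w x ih =>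
    simp only [cnt_append, eqb] at ih ⊢
    rcases eq_or_ne x a with rfl | hxa
    · simp [hac] at ih ⊢; omega
    · rcases eq_or_ne x c with rfl | hxc
      · simp [hxa] at ih ⊢; omega
      · simp [hxa, hxc] at ih ⊢; omega

theorem sub2_good (hn : 0 < n) (a b : α) : Good (fun w : List α => (sub2 a b w : ZMod n)) := by
  by_cases h : a = b
  · subst h
    exact (choose_cnt_good hn (eqb a) 2).congr fun w => by rw [two_self]
  · refine (choose_marker_good hn (eqb a) (eqb b) (fun x hx => ?_) 1).congr fun w => ?_
    · simp only [eqb, decide_eq_true_eq] at hx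
      simp [eqb, hx, h]
    · rw [sub2, ← Nat.coe_castAddMonoidHom, cast_psum]
      refine congrArg (fun ψ => psum ψ w) (funext fun u => funext fun x => ?_)
      by_cases hx : x = b <;> simp [eqb, hx, Nat.choose_one_right]

theorem prodMarker_good (hn : 0 < n) {a b c : α} (hab : a ≠ b) (hcb : c ≠ b) :
    Good (fun w : List α => ((psum (fun u x =>
      if x = b then cnt (eqb a) u * cnt (eqb c) u else 0) w : ℕ) : ZMod n)) := by
  have : NeZero n := ⟨hn.ne'⟩
  have hq : ∀ d, d ≠ b → ∀ x, eqb d x = true → eqb b x = false := fun d hd x hx => by
    simp only [eqb, decide_eq_true_eq] at hx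
    simp [eqb, hx, hd]
  by_cases hac : a = c
  · subst hac
    refine ((choose_marker_good hn (eqb a) (eqb b) (hq a hab) 2).comp₂
      (choose_marker_good hn (eqb a) (eqb b) (hq a hab) 1) fun x y => 2 * x + y).congr fun w => ?_
    induction w using List.reverseRecOn with
    | nil => simp [psum]
    | append_singleton w x ih =>
      simp only [psum_append, Nat.cast_add] at ih ⊢
      rw [← ih]
      by_cases hx : x = b
      · simp only [eqb, hx, decide_true, if_true, Nat.choose_one_right]
        have : ∀ y : ℕ, y * y = 2 * y.choose 2 + y := fun y => by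
          induction y with
          | zero => rfl
          | succ y hy => rw [Nat.choose_succ_succ', Nat.choose_one_right]; linarith
        rw [this]
        push_cast
        ring
      · simp [eqb, hx]
  · have hq2 : ∀ x, (eqb a x || eqb c x) = true → eqb b x = false := fun x hx => by
      rcases Bool.or_eq_true _ _ |>.mp hx with hx | hx
      exacts [hq a hab x hx, hq c hcb x hx]
    refine ((choose_marker_good hn (fun x => eqb a x || eqb c x) (eqb b) hq2 2).comp₂
      ((choose_marker_good hn (eqb a) (eqb b) (hq a hab) 2).comp₂
        (choose_marker_good hn (eqb c) (eqb b) (hq c hcb) 2) fun x y => x + y)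
      fun x y => x - y).congr fun w => ?_
    induction w using List.reverseRecOn with
    | nil => simp [psum]
    | append_singleton w x ih =>
      simp only [psum_append, Nat.cast_add] at ih ⊢
      rw [← ih]
      by_cases hx : x = b
      · simp only [eqb, hx, decide_true, if_true]
        have e := cnt_pair hac w
        simp only [eqb] at e
        have : ∀ y z : ℕ, (y + z).choose 2 = y.choose 2 + z.choose 2 + y * z := fun y z => by
          induction z with
          | zero => simp
          | succ z hz =>
            rw [show y + (z + 1) = y + z + 1 by ring, Nat.choose_succ_succ',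
              Nat.choose_succ_succ', Nat.choose_one_right, Nat.choose_one_right]
            linarith
        rw [e, this]
        push_cast
        ring
      · simp [eqb, hx]

theorem sub3_good (hn : 0 < n) (a b c : α) :
    Good (fun w : List α => (sub3 a b c w : ZMod n)) := by
  have : NeZero n := ⟨hn.ne'⟩
  have h1 : ∀ d, Good (fun w : List α => (cnt (eqb d) w : ZMod n)) := fun d => cnt_mod_good _ n hn
  have hmid : ∀ a b c : α, a ≠ b → c ≠ b →
      Good (fun w : List α => (sub3 a b c w : ZMod n)) := fun a b c hab hcb => by
    refine (((h1 c).comp₂ (sub2_good hn a b) fun x y => x * y).comp₂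
      (prodMarker_good hn hab hcb) fun x y => x - y).congr fun w => ?_
    have := congrArg (fun t : ℕ => (t : ZMod n)) (three_middle hab hcb w)
    push_cast at this
    linear_combination -this
  have hlast : ∀ a b : α, a ≠ b → Good (fun w : List α => (sub3 a a b w : ZMod n)) := by
    intro a b hab
    refine (choose_marker_good hn (eqb a) (eqb b) (fun x hx => ?_) 2).congr fun w => ?_
    · simp only [eqb, decide_eq_true_eq] at hx
      simp [eqb, hx, hab]
    · rw [sub3, ← Nat.coe_castAddMonoidHom, cast_psum]
      refine congrArg (fun ψ => psum ψ w) (funext fun u => funext fun x => ?_)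
      by_cases hx : x = b <;> simp [eqb, hx, two_self]
  rcases eq_or_ne a b with rfl | hab
  · rcases eq_or_ne a c with rfl | hac
    · exact (choose_cnt_good hn (eqb a) 3).congr fun w => by rw [three_self]
    · exact hlast a c hac
  · rcases eq_or_ne c b with rfl | hcb
    · -- the shape b a a
      refine ((((h1 a).comp₂ (choose_cnt_good hn (eqb c) 2) fun x y => x * y).comp₂
        (hmid c a c hab.symm hab.symm) fun x y => x - y).comp₂
        (hlast c a hab.symm) fun x y => x - y).congr fun w => ?_
      have := congrArg (fun t : ℕ => (t : ZMod n)) (three_shuffle hab.symm w)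
      push_cast at this
      linear_combination -this
    · exact hmid a b c hab hcb

end Vale.Agent.P329
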