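import Vale.Agent.P329.PointCount

/-!
P329: extensions of abelian groups by elementary abelian groups have height at most one.
-/

namespace Vale.Agent.P329

variable {α : Type} [Finite α]

omit [Finite α] in
lemma Good.pi {ι : Type*} [Finite ι] {β : ι → Type*} {F : ∀ i, List α → β i}
    (h : ∀ i, Good (F i)) : Good (fun w => fun i => F i w) := by
  intro b
  refine (HeightLE.iUnion (fun i => ({w | F i w ≠ b i} : Language α))
    fun i => ((h i) (b i)).compl).compl.of_eq fun w => ?_
  show (¬ ∃ i, F i w ≠ b i) ↔ (fun i => F i w) = b
  simp [funext_iff]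

omit [Finite α] in
lemma exists_coords {p : ℕ} [Fact p.Prime] {B : Type*} [AddCommGroup B] [Finite B]
    (h : ∀ b : B, p • b = 0) : ∃ d : ℕ, Nonempty (B ≃+ (Fin d → ZMod p)) := by
  let hmod : Module (ZMod p) B := AddCommGroup.zmodModule (n := p) (G := B) h
  have : Module.Finite (ZMod p) B := Module.Finite.of_finite (R := ZMod p)
  have bb := Module.finBasis (ZMod p) B
  exact ⟨_, ⟨bb.equivFun.toAddEquiv⟩⟩

theorem extension_good {H : Type*} [Group H] [Finite H] {p : ℕ} [Fact p.Prime] (K : Subgroup H)
    [K.Normal] (hK : ∀ x ∈ K, ∀ y ∈ K, x * y = y * x)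
    (hc : ∀ x y : H, x * y * x⁻¹ * y⁻¹ ∈ K) (hp : ∀ x : H, x ^ p ∈ K) (f : α → H) :
    Good (fun w : List α => (w.map f).prod) := by
  classical
  have := Fintype.ofFinite α
  let _ : CommGroup (H ⧸ K) :=
    { (inferInstance : Group (H ⧸ K)) with
      mul_comm := fun a b => by
        induction a using QuotientGroup.induction_on with
        | _ x => induction b using QuotientGroup.induction_on with
          | _ y =>
            rw [← QuotientGroup.mk_mul, ← QuotientGroup.mk_mul]
            refine QuotientGroup.eq.mpr ?_
            have := hc y⁻¹ x⁻¹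
            simp only [inv_inv] at this
            rw [mul_inv_rev]
            simpa [mul_assoc] using this }
  let _ : CommGroup K :=
    { (inferInstance : Group K) with mul_comm := fun a b => Subtype.ext (hK _ a.2 _ b.2) }
  obtain ⟨d, ⟨e⟩⟩ := exists_coords (p := p) (B := Additive (H ⧸ K)) fun b => by
    obtain ⟨x, hx⟩ := QuotientGroup.mk_surjective (Additive.toMul b)
    apply Additive.toMul.injective
    rw [toMul_nsmul, ← hx, ← QuotientGroup.mk_pow, toMul_zero]
    exact (QuotientGroup.eq_one_iff _).mpr (hp x)
  let ι := Fin d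
  let τ : ι → α → ZMod p := fun i a => e (Additive.ofMul (f a : H ⧸ K)) i
  let β : List α → (ι → ZMod p) := fun w i => pwt (τ i) w
  have hβ : ∀ w : List α, β w = e (Additive.ofMul ((w.map f).prod : H ⧸ K)) := by
    intro w
    induction w using List.reverseRecOn with
    | nil =>
      rw [List.map_nil, List.prod_nil, QuotientGroup.mk_one, ofMul_one, map_zero]
      funext i
      simp [β, pwt]
    | append_singleton w a ih =>
      rw [List.map_append, List.prod_append, List.map_singleton, List.prod_singleton,
        QuotientGroup.mk_mul, ofMul_mul, map_add, ← ih]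
      funext i
      simp [β, τ, pwt]
  let s : (ι → ZMod p) → H := fun v => Quotient.out (Additive.toMul (e.symm v))
  have hs : ∀ w : List α, ((s (β w) : H) : H ⧸ K) = ((w.map f).prod : H ⧸ K) := fun w => by
    simp only [s, hβ, AddEquiv.symm_apply_apply, toMul_ofMul]
    exact Quotient.out_eq _
  let κ : List α → K := fun w => ⟨(w.map f).prod * (s (β w))⁻¹, by
    rw [← QuotientGroup.eq_one_iff, QuotientGroup.mk_mul, QuotientGroup.mk_inv, hs, mul_inv_cancel]⟩
  let g : (ι → ZMod p) → α → K := fun v a =>
    if h : s v * f a * (s fun i => v i + τ i a)⁻¹ ∈ K then ⟨_, h⟩ else 1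
  have hstep : ∀ (w : List α) (a : α), κ (w ++ [a]) = κ w * g (β w) a := by
    intro w a
    have hb : (fun i => β w i + τ i a) = β (w ++ [a]) := funext fun i => by simp [β, pwt]
    have hval : (κ (w ++ [a])).1 =
        (κ w).1 * (s (β w) * f a * (s fun i => β w i + τ i a)⁻¹) := by
      simp only [κ, hb, List.map_append, List.prod_append, List.map_singleton, List.prod_singleton]
      group
    have hmem : s (β w) * f a * (s fun i => β w i + τ i a)⁻¹ ∈ K :=
      (Subgroup.mul_mem_cancel_left _ (κ w).2).mp (hval ▸ (κ (w ++ [a])).2)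
    refine Subtype.ext ?_
    rw [Subgroup.coe_mul, hval]
    simp only [g, dif_pos hmem]
  -- the abelian part through the position counts
  let L : (ι → ZMod p) → List ((α → ZMod p) × ZMod p) := fun v =>
    (List.finRange _).map fun i => (τ i, v i)
  have hL : ∀ (v : ι → ZMod p) (u : List α), hasRes (L v) u = true ↔ β u = v := by
    intro v u
    have key : ∀ l : List ι, hasRes (l.map fun i => (τ i, v i)) u = true ↔
        ∀ i ∈ l, pwt (τ i) u = v i := by
      intro l
      induction l with
      | nil => simp [hasRes]
      | cons i l ih => simp [hasRes, ih]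
    simp only [L, key, funext_iff, β]
    exact ⟨fun h i => h i (List.mem_finRange i), fun h i _ => h i⟩
  have : Fintype H := Fintype.ofFinite H
  let n := Fintype.card K
  have hn : 0 < n := Fintype.card_pos
  have : NeZero n := ⟨hn.ne'⟩
  let F : α × (ι → ZMod p) → List α → Additive K := fun xv w =>
    Additive.ofMul (g xv.2 xv.1 ^ pcount xv.1 (hasRes (L xv.2)) w)
  have hF : ∀ xv, Good (F xv) := fun xv =>
    ((pcount_good xv.1 _ (L xv.2) rfl n hn).comp fun z => Additive.ofMul (g xv.2 xv.1 ^ z.val)).congr
      fun w => by
        simp only [F, ZMod.val_natCast, n]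
        rw [pow_mod_card]
  have hsum : ∀ w : List α,
      Additive.ofMul (κ w) = ∑ xv, F xv w + Additive.ofMul (κ []) := by
    intro w
    induction w using List.reverseRecOn with
    | nil => simp [F, pcount, psum]
    | append_singleton w a ih =>
      have : ∀ xv, F xv (w ++ [a]) = F xv w +
          if xv = (a, β w) then Additive.ofMul (g xv.2 xv.1) else 0 := by
        rintro ⟨x, v⟩
        simp only [F, pcount_append, hL, pow_add, ofMul_mul, Prod.mk.injEq]
        by_cases h : a = x ∧ β w = v
        · rw [if_pos h, if_pos ⟨h.1.symm, h.2.symm⟩, pow_one]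
        · rw [if_neg h, if_neg (fun h' => h ⟨h'.1.symm, h'.2.symm⟩), pow_zero, ofMul_one]
      rw [hstep, ofMul_mul, ih, Finset.sum_congr rfl (fun xv _ => this xv),
        Finset.sum_add_distrib, Finset.sum_ite_eq' Finset.univ (a, β w),
        if_pos (Finset.mem_univ _)]
      abel
  have hκ : Good κ :=
    ((Good.sum Finset.univ F fun xv _ => hF xv).comp
      fun z => Additive.toMul (z + Additive.ofMul (κ []))).congr fun w => by
        rw [← hsum]; rfl
  have hβg : Good β := Good.pi fun i => by
    have hτ : ∀ w : List α, pwt (τ i) w =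
        ∑ a, τ i a * (cnt (fun x => decide (x = a)) w : ZMod p) := by
      intro w
      induction w using List.reverseRecOn with
      | nil => simp [pwt, cnt]
      | append_singleton w b ih =>
        simp only [pwt_append, ih, cnt_append, Nat.cast_add, mul_add, Finset.sum_add_distrib,
          decide_eq_true_eq]
        congr 1
        simp [pwt]
    exact (Good.sum Finset.univ _ fun a _ =>
      (cnt_mod_good (fun x => decide (x = a)) p (Fact.out : p.Prime).pos).comp
        fun z => τ i a * z).congr fun w => (hτ w).symm
  exact (hκ.comp₂ hβg fun k v => (k : H) * s v).congr fun w => by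
    show (w.map f).prod * (s (β w))⁻¹ * s (β w) = (w.map f).prod
    group

end Vale.Agent.P329
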