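import Vale.Agent.P329.Automaton

/-!
P329: Schuetzenberger's theorem, the direction from aperiodic monoids to star-free languages,
by induction through local divisors.
-/

namespace Vale.Agent.P329

variable {α : Type}

/-- The language of the words with a given property. -/
def lg (P : List α → Prop) : Language α := {w | P w}

/-- Every element has two equal consecutive powers. -/
def Aper (M : Type) [Monoid M] : Prop := ∀ x : M, ∃ n : ℕ, x ^ n = x ^ (n + 1)

/-- The elements divisible by `c` on both sides. -/
def LocDiv {M : Type} [Monoid M] (c : M) : Type :=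
  {x : M // (∃ y, x = c * y) ∧ ∃ z, x = z * c}

namespace LocDiv

variable {M : Type} [Monoid M] {c : M}

instance [Finite M] : Finite (LocDiv c) := Subtype.finite

instance : One (LocDiv c) := ⟨⟨c, ⟨1, (mul_one c).symm⟩, ⟨1, (one_mul c).symm⟩⟩⟩

/-- A left cofactor. -/
noncomputable def cof (x : LocDiv c) : M := x.2.2.choose

lemma cof_spec (x : LocDiv c) : cof x * c = x.1 := x.2.2.choose_spec.symm

noncomputable instance : Mul (LocDiv c) := ⟨fun x y => ⟨cof x * y.1, by
  obtain ⟨⟨u, hu⟩, -⟩ := x.2
  obtain ⟨⟨y', hy⟩, z, hz⟩ := y.2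
  refine ⟨⟨u * y', ?_⟩, ⟨cof x * z, by rw [hz, mul_assoc]⟩⟩
  rw [hy, ← mul_assoc, cof_spec, hu, mul_assoc]⟩⟩

lemma mul_val (x y : LocDiv c) : (x * y).1 = cof x * y.1 := rfl

lemma mul_val' (x y : LocDiv c) {y' : M} (h : y.1 = c * y') : (x * y).1 = x.1 * y' := by
  rw [mul_val, h, ← mul_assoc, cof_spec]

noncomputable instance : Monoid (LocDiv c) where
  mul_assoc x y w := by
    obtain ⟨⟨w', hw⟩, -⟩ := w.2
    refine Subtype.ext ?_
    rw [mul_val' (x * y) w hw, mul_val, mul_val x (y * w), mul_val' y w hw, mul_assoc]
  one_mul y := by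
    obtain ⟨⟨y', hy⟩, -⟩ := y.2
    exact Subtype.ext ((mul_val' 1 y hy).trans hy.symm)
  mul_one x := Subtype.ext (cof_spec x)

lemma pow_val (x : LocDiv c) : ∀ k : ℕ, (x ^ (k + 1)).1 = cof x ^ k * x.1
  | 0 => by simp
  | k + 1 => by
    rw [pow_succ' x (k + 1), mul_val, pow_val x k, pow_succ' (cof x) k, mul_assoc]

lemma aper (hM : Aper M) : Aper (LocDiv c) := fun x => by
  obtain ⟨n, hn⟩ := hM (cof x)
  exact ⟨n + 1, Subtype.ext (by rw [pow_val, pow_val, hn])⟩

lemma card_lt [Finite M] (hM : Aper M) (hc : c ≠ 1) : Nat.card (LocDiv c) < Nat.card M := by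
  refine Nat.lt_of_not_le fun hle => ?_
  have hbij : Function.Bijective (fun x : LocDiv c => x.1) :=
    Subtype.val_injective.bijective_of_nat_card_le hle
  obtain ⟨x, hx⟩ := hbij.2 1
  obtain ⟨⟨y, hy⟩, -⟩ := x.2
  rw [show x.1 = 1 from hx] at hy
  obtain ⟨n, hn⟩ := hM c
  have hk : ∀ k : ℕ, c ^ k * y ^ k = 1 := by
    intro k
    induction k with
    | zero => simp
    | succ k ih =>
      calc c ^ (k + 1) * y ^ (k + 1) = c ^ k * (c * y) * y ^ k := by
            rw [pow_succ c, pow_succ' y]; simp [mul_assoc]
        _ = 1 := by rw [← hy, mul_one, ih]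
  refine hc ?_
  calc c = c * (c ^ n * y ^ n) := by rw [hk, mul_one]
    _ = 1 := by rw [← mul_assoc, ← pow_succ', ← hn, hk]

end LocDiv

section Seg

variable [DecidableEq α] {M : Type} [Monoid M] (μ : α → M) (S : Finset α) (c : α)

/-- The value of a word. -/
def evW (w : List α) : M := (w.map μ).prod

/-- The values of the segments ended by the letter `c`. -/
def sig : M → List α → List M
  | _, [] => []
  | acc, a :: w => if a = c then acc :: sig 1 w else sig (acc * μ a) w

/-- Words over `S` that are empty or end with the letter `c`. -/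
def dom : Language α := {w | (∀ a ∈ w, a ∈ S) ∧ (w = [] ∨ ∃ x, w = x ++ [c])}

variable {μ S c}

lemma evW_append (u v : List α) : evW μ (u ++ v) = evW μ u * evW μ v := by
  simp [evW]

lemma evW_cons (a : α) (v : List α) : evW μ (a :: v) = μ a * evW μ v := by
  simp [evW]

lemma sig_seg : ∀ (u : List α) (acc : M) (v : List α), c ∉ u →
    sig μ c acc (u ++ c :: v) = (acc * evW μ u) :: sig μ c 1 v
  | [], acc, v, _ => by simp [sig, evW]
  | a :: u, acc, v, h => by
    simp only [List.mem_cons, not_or] at h
    rw [List.cons_append, sig, if_neg (Ne.symm h.1), sig_seg u _ v h.2, evW_cons, mul_assoc]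

lemma dom_cases {w : List α} (hw : w ∈ dom S c) : w = [] ∨ ∃ u v, w = u ++ c :: v ∧ c ∉ u ∧
    (∀ a ∈ u, a ∈ S.erase c) ∧ v ∈ dom S c := by
  obtain ⟨hS, rfl | ⟨x, rfl⟩⟩ := hw
  · exact Or.inl rfl
  right
  obtain ⟨u, v, e, hu⟩ := List.eq_append_cons_of_mem (show c ∈ x ++ [c] by simp)
  refine ⟨u, v, e, hu, fun a ha => Finset.mem_erase.mpr ⟨fun h => hu (h ▸ ha),
    hS a (by rw [e]; simp [ha])⟩, fun a ha => hS a (by rw [e]; simp [ha]), ?_⟩
  rcases List.eq_nil_or_concat v with rfl | ⟨v', b, rfl⟩
  · exact Or.inl rfl
  · rw [List.concat_eq_append] at e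
    have := (List.append_inj' (e.trans (by simp : u ++ c :: (v' ++ [b]) = (u ++ c :: v') ++ [b]))
      rfl).2
    obtain rfl : c = b := by simpa using this
    exact Or.inr ⟨v', by simp⟩

lemma dom_append {u v : List α} (hu : u ∈ dom S c) (hv : v ∈ dom S c) : u ++ v ∈ dom S c := by
  refine ⟨fun a ha => (List.mem_append.mp ha).elim (hu.1 a) (hv.1 a), ?_⟩
  rcases hv.2 with rfl | ⟨y, rfl⟩
  · simpa using hu.2
  · exact Or.inr ⟨u ++ y, by simp⟩

lemma sig_append : ∀ (k : ℕ) (u : List α), u.length ≤ k → u ∈ dom S c → ∀ v : List α,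
    sig μ c 1 (u ++ v) = sig μ c 1 u ++ sig μ c 1 v
  | 0, u, hk, _, v => by
    obtain rfl := List.eq_nil_of_length_eq_zero (Nat.le_zero.mp hk)
    simp [sig]
  | k + 1, u, hk, hu, v => by
    rcases dom_cases hu with rfl | ⟨x, y, rfl, hx, -, hy⟩
    · simp [sig]
    · rw [List.append_assoc, List.cons_append, sig_seg x 1 _ hx, sig_seg x 1 _ hx,
        sig_append k y (by simp at hk; omega) hy v, List.cons_append]

lemma sig_split : ∀ (s t : List M) (w : List α), w ∈ dom S c → sig μ c 1 w = s ++ t →
    ∃ u v, w = u ++ v ∧ u ∈ dom S c ∧ v ∈ dom S c ∧ sig μ c 1 u = s ∧ sig μ c 1 v = t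
  | [], t, w, hw, h => ⟨[], w, rfl, ⟨by simp, Or.inl rfl⟩, hw, rfl, h⟩
  | m :: s, t, w, hw, h => by
    rcases dom_cases hw with rfl | ⟨x, y, rfl, hx, hxS, hy⟩
    · simp [sig] at h
    · rw [sig_seg x 1 y hx, List.cons_append, List.cons.injEq] at h
      obtain ⟨u, v, rfl, hu, hv, hus, hvt⟩ := sig_split s t y hy h.2
      refine ⟨x ++ c :: u, v, by simp, ⟨?_, ?_⟩, hv, by rw [sig_seg x 1 u hx, h.1, hus], hvt⟩
      · intro a ha
        exact hw.1 a (by simp only [List.mem_append, List.mem_cons] at ha ⊢; tauto)
      · rcases hu.2 with rfl | ⟨z, rfl⟩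
        · exact Or.inr ⟨x, rfl⟩
        · exact Or.inr ⟨x ++ c :: z, by simp⟩

variable [Finite α]

lemma dom_starFree (hc : c ∈ S) : HeightLE 0 (dom S c) := by
  refine (HeightLE.nilWord.union ((HeightLE.allMem fun a => a ∈ S).concat
    (HeightLE.letter c))).of_eq fun w => ?_
  show (w ∈ (1 : Language α) ∨ w ∈ (lg fun w => ∀ a ∈ w, a ∈ S) * ({[c]} : Language α)) ↔ _
  rw [Language.mem_one, Language.mem_mul]
  constructor
  · rintro (rfl | ⟨x, hx, y, hy, rfl⟩)
    · exact ⟨by simp, Or.inl rfl⟩
    · obtain rfl : y = [c] := hy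
      exact ⟨fun a ha => (List.mem_append.mp ha).elim (hx a) fun h => by
        rw [List.mem_singleton.mp h]; exact hc, Or.inr ⟨x, rfl⟩⟩
  · rintro ⟨hS, rfl | ⟨x, rfl⟩⟩
    · exact Or.inl rfl
    · exact Or.inr ⟨x, fun a ha => hS a (by simp [ha]), [c], rfl, rfl⟩

lemma preimage_starFree (hc : c ∈ S)
    (hB : ∀ m, HeightLE 0 (lg fun w => (∀ a ∈ w, a ∈ S.erase c) ∧ evW μ w = m)) :
    ∀ e : GenExp M, e.height ≤ 0 →
      HeightLE 0 (lg fun w => w ∈ dom S c ∧ sig μ c 1 w ∈ e.lang)
  | .zero, _ => HeightLE.empty.of_eq fun w =>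
      iff_of_false (Language.notMem_zero _) fun h => Language.notMem_zero _ h.2
  | .one, _ => HeightLE.nilWord.of_eq fun w => by
      rw [Language.mem_one]
      constructor
      · rintro rfl
        exact ⟨⟨by simp, Or.inl rfl⟩, rfl⟩
      · rintro ⟨hw, h⟩
        rcases dom_cases hw with rfl | ⟨u, v, rfl, hu, -, -⟩
        · rfl
        · have h' : sig μ c 1 (u ++ c :: v) = [] := h
          rw [sig_seg u 1 v hu] at h'
          exact absurd h' (List.cons_ne_nil _ _)
  | .letter t, _ => ((hB t).concat (HeightLE.letter c)).of_eq fun w => by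
      rw [Language.mem_mul]
      constructor
      · rintro ⟨u, ⟨hu, hut⟩, y, hy, rfl⟩
        obtain rfl : y = [c] := hy
        have hcu : c ∉ u := fun h => (Finset.mem_erase.mp (hu c h)).1 rfl
        refine ⟨⟨fun a ha => (List.mem_append.mp ha).elim
          (fun h => Finset.mem_of_mem_erase (hu a h))
          (fun h => by rw [List.mem_singleton.mp h]; exact hc), Or.inr ⟨u, rfl⟩⟩, ?_⟩
        show sig μ c 1 (u ++ [c]) = [t]
        rw [sig_seg u 1 [] hcu, one_mul, hut]
        rfl
      · rintro ⟨hw, h⟩
        have h' : sig μ c 1 w = [t] := h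
        rcases dom_cases hw with rfl | ⟨u, v, rfl, hu, huS, hv⟩
        · simp [sig] at h'
        · rw [sig_seg u 1 v hu, one_mul, List.cons.injEq] at h'
          rcases dom_cases hv with rfl | ⟨u', v', rfl, hu', -, -⟩
          · exact ⟨u, ⟨huS, h'.1⟩, [c], rfl, rfl⟩
          · have h2 := h'.2
            rw [sig_seg u' 1 v' hu'] at h2
            exact absurd h2 (List.cons_ne_nil _ _)
  | .union P Q, h => by
      obtain ⟨h1, h2⟩ := max_le_iff.mp h
      refine ((preimage_starFree hc hB P h1).union (preimage_starFree hc hB Q h2)).of_eq fun w => ?_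
      show (_ ∧ _) ∨ (_ ∧ _) ↔ _ ∧ (_ ∨ _)
      tauto
  | .concat P Q, h => by
      obtain ⟨h1, h2⟩ := max_le_iff.mp h
      refine ((preimage_starFree hc hB P h1).concat (preimage_starFree hc hB Q h2)).of_eq fun w => ?_
      rw [Language.mem_mul]
      constructor
      · rintro ⟨u, ⟨hu, hu'⟩, v, ⟨hv, hv'⟩, rfl⟩
        refine ⟨dom_append hu hv, ?_⟩
        show sig μ c 1 (u ++ v) ∈ P.lang * Q.lang
        rw [sig_append _ u le_rfl hu v]
        exact Language.mem_mul.mpr ⟨_, hu', _, hv', rfl⟩
      · rintro ⟨hw, hw'⟩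
        obtain ⟨s, hs, t, ht, e⟩ := Language.mem_mul.mp (show sig μ c 1 w ∈ P.lang * Q.lang from hw')
        obtain ⟨u, v, rfl, hu, hv, hus, hvt⟩ := sig_split s t w hw e.symm
        exact ⟨u, ⟨hu, hus ▸ hs⟩, v, ⟨hv, hvt ▸ ht⟩, rfl⟩
  | .compl P, h => by
      refine ((dom_starFree hc).inter (preimage_starFree hc hB P h).compl).of_eq fun w => ?_
      show w ∈ dom S c ∧ ¬ (_ ∧ _) ↔ _ ∧ ¬ _
      tauto
  | .star P, h => by simp [GenExp.height] at h

end Seg

/-- Schuetzenberger: languages recognised by finite aperiodic monoids are star-free. -/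
theorem aper_starFree : ∀ (k : ℕ) (M : Type) [Monoid M] [Finite M], Nat.card M ≤ k → Aper M →
    ∀ (α : Type) [Finite α] (μ : α → M) (m : M),
      HeightLE 0 (lg fun w => (w.map μ).prod = m) := by
  classical
  intro k
  induction k using Nat.strong_induction_on with
  | _ k IH =>
    intro M _ _ hk hM α _ μ m
    have := Fintype.ofFinite α
    suffices key : ∀ (j : ℕ) (S : Finset α), S.card ≤ j → ∀ m : M,
        HeightLE 0 (lg fun w => (∀ a ∈ w, a ∈ S) ∧ evW μ w = m) from
      (key _ Finset.univ le_rfl m).of_eq fun w =>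
        ⟨fun h => h.2, fun h => ⟨fun a _ => Finset.mem_univ a, h⟩⟩
    intro j
    induction j with
    | zero =>
      intro S hS m
      obtain rfl := Finset.card_eq_zero.mp (Nat.le_zero.mp hS)
      by_cases hm : m = 1
      · refine HeightLE.nilWord.of_eq fun w => ?_
        rw [Language.mem_one]
        constructor
        · rintro rfl
          exact ⟨by simp, by simp [evW, hm]⟩
        · rintro ⟨h, -⟩
          exact List.eq_nil_iff_forall_not_mem.mpr fun a ha => Finset.notMem_empty a (h a ha)
      · refine HeightLE.empty.of_eq fun w => iff_of_false (Language.notMem_zero _) ?_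
        rintro ⟨h, e⟩
        obtain rfl : w = [] :=
          List.eq_nil_iff_forall_not_mem.mpr fun a ha => Finset.notMem_empty a (h a ha)
        exact hm (by simpa [evW] using e.symm)
    | succ j ih =>
      intro S hS m
      by_cases hall : ∀ a ∈ S, μ a = 1
      · have h1 : ∀ w : List α, (∀ a ∈ w, a ∈ S) → evW μ w = 1 := fun w hw =>
          List.prod_eq_one fun x hx => by
            obtain ⟨a, ha, rfl⟩ := List.mem_map.mp hx
            exact hall a (hw a ha)
        by_cases hm : m = 1
        · exact (HeightLE.allMem fun a => a ∈ S).of_eq fun w =>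
            ⟨fun h => ⟨h, (h1 w h).trans hm.symm⟩, fun h => h.1⟩
        · exact HeightLE.empty.of_eq fun w => iff_of_false (Language.notMem_zero _)
            fun h => hm (h.2.symm.trans (h1 w h.1))
      · obtain ⟨c, hc, hc1⟩ := by push Not at hall; exact hall
        have hB := ih (S.erase c) (by rw [Finset.card_erase_of_mem hc]; omega)
        let D := LocDiv (μ c)
        let ψ : M → D := fun t =>
          ⟨μ c * t * μ c, ⟨t * μ c, mul_assoc _ _ _⟩, ⟨μ c * t, rfl⟩⟩
        have hev : ∀ (n : ℕ) (w : List α), w.length ≤ n → w ∈ dom S c →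
            ((sig μ c 1 w).map ψ).prod.1 = μ c * evW μ w := by
          intro n
          induction n with
          | zero =>
            intro w hw _
            obtain rfl := List.eq_nil_of_length_eq_zero (Nat.le_zero.mp hw)
            simp [sig, evW]
            rfl
          | succ n ihn =>
            intro w hw hd
            rcases dom_cases hd with rfl | ⟨u, v, rfl, hu, -, hv⟩
            · simp [sig, evW]
              rfl
            · rw [sig_seg u 1 v hu, one_mul, List.map_cons, List.prod_cons,
                LocDiv.mul_val' _ _ (ihn v (by simp at hw; omega) hv), evW_append, evW_cons]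
              simp [ψ, mul_assoc]
        have hseg : ∀ d : D, HeightLE 0
            (lg fun w => w ∈ dom S c ∧ ((sig μ c 1 w).map ψ).prod = d) := by
          intro d
          obtain ⟨e, he, hel⟩ :=
            IH _ ((LocDiv.card_lt hM hc1).trans_le hk) D le_rfl (LocDiv.aper hM) M ψ d
          refine (preimage_starFree hc hB e he).of_eq fun w => ?_
          show w ∈ dom S c ∧ sig μ c 1 w ∈ e.lang ↔ _
          rw [hel]
          exact Iff.rfl
        let piece : {t : M × D × M // t.1 * t.2.1.1 * t.2.2 = m} → Language α := fun t =>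
          (lg fun w => (∀ a ∈ w, a ∈ S.erase c) ∧ evW μ w = t.1.1) *
            (({[c]} : Language α) *
              ((lg fun w => w ∈ dom S c ∧ ((sig μ c 1 w).map ψ).prod = t.1.2.1) *
                (lg fun w => (∀ a ∈ w, a ∈ S.erase c) ∧ evW μ w = t.1.2.2)))
        have : Finite D := inferInstance
        refine ((hB m).union (HeightLE.iUnion piece fun t => (hB _).concat
          ((HeightLE.letter c).concat ((hseg _).concat (hB _))))).of_eq fun w => ?_
        show ((∀ a ∈ w, a ∈ S.erase c) ∧ evW μ w = m) ∨ w ∈ unionOf piece ↔ _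
        constructor
        · rintro (⟨h, e⟩ | ⟨⟨⟨m1, d, m3⟩, ht⟩, hw⟩)
          · exact ⟨fun a ha => Finset.mem_of_mem_erase (h a ha), e⟩
          · obtain ⟨u, ⟨hu, hu1⟩, x, hx, rfl⟩ := Language.mem_mul.mp hw
            obtain ⟨y, hy, z, hz, rfl⟩ := Language.mem_mul.mp hx
            obtain rfl : y = [c] := hy
            obtain ⟨v, ⟨hv, hvd⟩, u', ⟨hu', hu3⟩, rfl⟩ := Language.mem_mul.mp hz
            refine ⟨?_, ?_⟩
            · intro a ha
              simp only [List.mem_append, List.mem_singleton] at ha
              rcases ha with ha | ha | ha | ha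
              exacts [Finset.mem_of_mem_erase (hu a ha), ha ▸ hc, hv.1 a ha,
                Finset.mem_of_mem_erase (hu' a ha)]
            · simp only at hvd hu1 hu3 ht
              rw [evW_append, List.singleton_append, evW_cons, evW_append,
                ← mul_assoc (μ c), ← hev _ v le_rfl hv, hvd, hu1, hu3, ← ht, mul_assoc]
        · rintro ⟨hS', e⟩
          by_cases hcw : c ∈ w
          swap
          · exact Or.inl ⟨fun a ha =>
              Finset.mem_erase.mpr ⟨fun h => hcw (h ▸ ha), hS' a ha⟩, e⟩
          right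
          obtain ⟨u, r, rfl, hu⟩ := List.eq_append_cons_of_mem hcw
          have hlast : ∀ r : List α, (∀ a ∈ r, a ∈ S) →
              ∃ v u', r = v ++ u' ∧ v ∈ dom S c ∧ ∀ a ∈ u', a ∈ S.erase c := by
            intro r
            induction r using List.reverseRecOn with
            | nil => exact fun _ => ⟨[], [], rfl, ⟨by simp, Or.inl rfl⟩, by simp⟩
            | append_singleton r b ihr =>
              intro hr
              obtain ⟨v, u', rfl, hv, hu'⟩ := ihr fun a ha => hr a (by simp [ha])
              by_cases hb : b = c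
              · subst hb
                exact ⟨v ++ u' ++ [b], [], by simp,
                  ⟨hr, Or.inr ⟨v ++ u', rfl⟩⟩, by simp⟩
              · exact ⟨v, u' ++ [b], by simp, hv, fun a ha =>
                  (List.mem_append.mp ha).elim (hu' a) fun h => by
                    rw [List.mem_singleton.mp h]
                    exact Finset.mem_erase.mpr ⟨hb, hr b (by simp)⟩⟩
          obtain ⟨v, u', rfl, hv, hu'⟩ := hlast r fun a ha => hS' a (by simp [ha])
          refine ⟨⟨(evW μ u, ((sig μ c 1 v).map ψ).prod, evW μ u'), ?_⟩,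
            Language.mem_mul.mpr ⟨u, ⟨fun a ha => Finset.mem_erase.mpr
              ⟨fun h => hu (h ▸ ha), hS' a (by simp [ha])⟩, rfl⟩, [c] ++ (v ++ u'),
              Language.mem_mul.mpr ⟨[c], rfl, v ++ u',
                Language.mem_mul.mpr ⟨v, ⟨hv, rfl⟩, u', ⟨hu', rfl⟩, rfl⟩, rfl⟩, rfl⟩⟩
          show evW μ u * ((sig μ c 1 v).map ψ).prod.1 * evW μ u' = m
          rw [hev _ v le_rfl hv, ← e, evW_append, evW_cons, evW_append]
          simp [mul_assoc]

section Automata

variable {Q : Type} {δ : Q → α → Q} {q0 : Q}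

/-- No power of a word makes a nontrivial cycle avoiding the distinguished state. -/
def NoCycle (δ : Q → α → Q) (q0 : Q) : Prop :=
  ∀ (q : Q) (u : List α) (k : ℕ), q ≠ q0 → 0 < k →
    Avoids δ q0 q (List.replicate k u).flatten → (List.replicate k u).flatten.foldl δ q = q →
      u.foldl δ q = q

open MulOpposite

open scoped Classical in
/-- The partial step, undefined at the distinguished state on either side. -/
noncomputable def pstep (δ : Q → α → Q) (q0 : Q) (a : α) : (Function.End (Option Q))ᵐᵒᵖ :=
  op (fun s : Option Q => s.bind fun q => if q = q0 ∨ δ q a = q0 then none else some (δ q a))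

lemma pstep_run : ∀ (u : List α) (q j : Q), q ≠ q0 →
    ((u.map (pstep δ q0)).prod.unop (some q) = some j ↔ Avoids δ q0 q u ∧ u.foldl δ q = j)
  | [], q, j, _ => by
    simp only [List.map_nil, List.prod_nil, unop_one, Avoids, true_and, List.foldl_nil]
    exact Option.some_inj
  | a :: u, q, j, hq => by
    classical
    rw [List.map_cons, List.prod_cons, unop_mul, List.foldl_cons]
    show (u.map (pstep δ q0)).prod.unop
      ((some q).bind fun q => if q = q0 ∨ δ q a = q0 then none else some (δ q a)) = some j ↔ _
    rw [Option.bind_some]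
    by_cases ha : δ q a = q0
    · rw [if_pos (Or.inr ha)]
      refine iff_of_false ?_ fun h => h.1.1 ha
      have : ∀ v : List α, (v.map (pstep δ q0)).prod.unop none = none := by
        intro v
        induction v with
        | nil => rfl
        | cons b v ih =>
          rw [List.map_cons, List.prod_cons, unop_mul]
          exact ih
      rw [this]
      exact fun h => Option.noConfusion rfl (heq_of_eq h)
    · rw [if_neg (by tauto), pstep_run u _ j ha]
      simp [Avoids, ha]

/-- Without such cycles every avoidance language is star-free. -/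
theorem avoidable_of_noCycle [Finite α] [Finite Q] (h : NoCycle δ q0) : Avoidable δ q0 := by
  classical
  let ν := pstep δ q0
  let S : Submonoid (Function.End (Option Q))ᵐᵒᵖ :=
    { carrier := {m | ∃ u : List α, (u.map ν).prod = m}
      one_mem' := ⟨[], rfl⟩
      mul_mem' := fun ⟨u, hu⟩ ⟨v, hv⟩ => ⟨u ++ v, by rw [List.map_append, List.prod_append, hu, hv]⟩ }
  let μ : α → S := fun a => ⟨ν a, [a], by simp⟩
  have hμ : ∀ w : List α, ((w.map μ).prod).1 = (w.map ν).prod := by
    intro w
    induction w with
    | nil => rfl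
    | cons a w ih => rw [List.map_cons, List.prod_cons, Submonoid.coe_mul, ih]; simp [μ]
  have : Finite (Function.End (Option Q)) := Pi.finite
  have : Finite (Function.End (Option Q))ᵐᵒᵖ := Finite.of_equiv _ opEquiv
  have hA : Aper S := by
    rintro ⟨m, u, rfl⟩
    let g : Option Q → Option Q := (u.map ν).prod.unop
    have hpow : ∀ (k : ℕ) (s : Option Q), ((u.map ν).prod ^ k).unop s = g^[k] s := by
      intro k s
      induction k with
      | zero => rfl
      | succ k ih =>
        rw [Function.iterate_succ', pow_succ, unop_mul]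
        show g (((u.map ν).prod ^ k).unop s) = g (g^[k] s)
        rw [ih]
    have hflat : ∀ k : ℕ,
        (((List.replicate k u).flatten).map ν).prod = (u.map ν).prod ^ k := by
      intro k
      induction k with
      | zero => rfl
      | succ k ih =>
        rw [List.replicate_succ, List.flatten_cons, List.map_append, List.prod_append, ih,
          pow_succ']
    have hfix : ∀ (t : Option Q) (k : ℕ), 0 < k → g^[k] t = t → g t = t := by
      rintro (_ | q) k hk ht
      · by_contra hne
        have : ∀ v : List α, (v.map ν).prod.unop none = none := by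
          intro v
          induction v with
          | nil => rfl
          | cons b v ih =>
            rw [List.map_cons, List.prod_cons, unop_mul]
            exact ih
        exact hne (this u)
      · by_cases hu : u = []
        · subst hu
          rfl
        by_cases hq : q = q0
        · subst hq
          exfalso
          obtain ⟨a, v, rfl⟩ := List.exists_cons_of_ne_nil hu
          have hnone : ∀ v : List α, (v.map ν).prod.unop none = none := by
            intro v
            induction v with
            | nil => rfl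
            | cons b v ih =>
              rw [List.map_cons, List.prod_cons, unop_mul]
              exact ih
          have h0 : g (some q) = none := by
            show ((a :: v).map ν).prod.unop (some q) = none
            rw [List.map_cons, List.prod_cons, unop_mul]
            show (v.map ν).prod.unop ((some q).bind fun r => if r = q ∨ δ r a = q then none else some (δ r a)) = none
            rw [Option.bind_some, if_pos (Or.inl rfl), hnone]
          obtain ⟨k, rfl⟩ := Nat.exists_eq_succ_of_ne_zero hk.ne'
          have : g^[k + 1] (some q) = none := by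
            rw [Function.iterate_succ_apply, h0]
            exact Function.iterate_fixed (hnone (a :: v)) k
          rw [this] at ht
          simp at ht
        · rw [← hpow, ← hflat, pstep_run _ _ _ hq] at ht
          have h' := h q u k hq hk ht.1 ht.2
          refine (pstep_run u q q hq).mpr ⟨?_, h'⟩
          obtain ⟨k, rfl⟩ := Nat.exists_eq_succ_of_ne_zero hk.ne'
          rw [List.replicate_succ, List.flatten_cons, avoids_append] at ht
          exact ht.1.1
    refine ⟨Nat.card (Option Q), Subtype.ext (unop_injective (funext fun s => ?_))⟩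
    rw [SubmonoidClass.coe_pow, SubmonoidClass.coe_pow, hpow, hpow]
    have := Fintype.ofFinite Q
    obtain ⟨i, j, hij, e⟩ : ∃ i j : Fin (Nat.card (Option Q) + 1), i < j ∧ g^[i.1] s = g^[j.1] s := by
      obtain ⟨i, j, hne, e⟩ := Fintype.exists_ne_map_eq_of_card_lt
        (fun i : Fin (Nat.card (Option Q) + 1) => g^[i.1] s) (by simp [Nat.card_eq_fintype_card])
      rcases lt_or_gt_of_ne hne with hlt | hlt
      exacts [⟨i, j, hlt, e⟩, ⟨j, i, hlt, e.symm⟩]
    have hij' : i.1 < j.1 := hij
    have hj := j.2
    have hf : g (g^[i.1] s) = g^[i.1] s := hfix _ (j.1 - i.1) (by omega) (by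
      rw [← Function.iterate_add_apply, Nat.sub_add_cancel hij'.le, ← e])
    have hstable : ∀ d : ℕ, g^[i.1 + d] s = g^[i.1] s := fun d => by
      rw [Nat.add_comm, Function.iterate_add_apply]
      exact Function.iterate_fixed hf d
    obtain ⟨d, hd⟩ := Nat.exists_eq_add_of_le (show i.1 ≤ Nat.card (Option Q) by omega)
    rw [hd, hstable, Nat.add_assoc, hstable]
  intro q hq j
  let P : {m : S // m.1.unop (some q) = some j} → Language α := fun m =>
    lg fun w => (w.map μ).prod = m.1
  refine (HeightLE.iUnion P fun m => aper_starFree _ S le_rfl hA α μ m.1).of_eq fun w => ?_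
  show w ∈ unionOf P ↔ Avoids δ q0 q w ∧ w.foldl δ q = j
  rw [← pstep_run w q j hq]
  constructor
  · rintro ⟨⟨m, hm⟩, hw⟩
    have hw' : (w.map μ).prod = m := hw
    show (w.map ν).prod.unop (some q) = some j
    rw [← hμ, hw']
    exact hm
  · intro hw
    exact ⟨⟨(w.map μ).prod, by rw [hμ]; exact hw⟩, rfl⟩

end Automata

end Vale.Agent.P329
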