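import Vale.Agent.P329.Counts

/-!
P329: collection in groups of class three expresses the value of a word by subword counts of
length at most three.
-/

namespace Vale.Agent.P329

open scoped commutatorElement

variable {G : Type*} [Group G]

/-- The commutator `x⁻¹ g⁻¹ x g`. -/
def comm' (x g : G) : G := x⁻¹ * g⁻¹ * x * g

/-- Commutators with elements of the commutator subgroup are central. -/
class ClassThree (G : Type*) [Group G] : Prop where
  central : ∀ x ∈ commutator G, ∀ g : G, comm' x g ∈ Subgroup.center G

lemma comm'_mem (x g : G) : comm' x g ∈ commutator G := by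
  have h : ⁅x⁻¹, g⁻¹⁆ ∈ commutator G := by
    rw [commutator_def]
    exact Subgroup.commutator_mem_commutator (Subgroup.mem_top _) (Subgroup.mem_top _)
  simpa [commutatorElement_def, comm'] using h

/-- The commutator as an element of the commutator subgroup. -/
def cm (x g : G) : commutator G := ⟨comm' x g, comm'_mem x g⟩

variable [ClassThree G]

lemma comm'_mul_right (x : G) (hx : x ∈ commutator G) (g h : G) :
    comm' x (g * h) = comm' x g * comm' x h := by
  have hz := Subgroup.mem_center_iff.mp (ClassThree.central x hx g)
  calc comm' x (g * h) = comm' x h * h⁻¹ * (comm' x g * h) := by simp [comm', mul_assoc]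
    _ = comm' x h * comm' x g := by rw [← hz h]; simp [mul_assoc]
    _ = comm' x g * comm' x h := hz _

lemma commutator_comm (x y : commutator G) : x * y = y * x := by
  let φ : G →* G :=
    { toFun := comm' x.1
      map_one' := by simp [comm']
      map_mul' := comm'_mul_right x.1 x.2 }
  have hker : ⁅(⊤ : Subgroup G), ⊤⁆ ≤ φ.ker := by
    rw [Subgroup.commutator_le]
    intro g _ g' _
    rw [MonoidHom.mem_ker, map_commutatorElement, commutatorElement_eq_one_iff_mul_comm]
    exact (Subgroup.mem_center_iff.mp (ClassThree.central x.1 x.2 g') _)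
  have h' : comm' x.1 y.1 = 1 := MonoidHom.mem_ker.mp (hker (commutator_def G ▸ y.2))
  refine Subtype.ext (show x.1 * y.1 = y.1 * x.1 from ?_)
  calc x.1 * y.1 = y.1 * x.1 * comm' x.1 y.1 := by simp [comm', mul_assoc]
    _ = y.1 * x.1 := by rw [h', mul_one]

instance : CommGroup (commutator G) :=
  { (inferInstance : Group (commutator G)) with mul_comm := commutator_comm }

/-- Commutation with a group element, a homomorphism on the commutator subgroup. -/
def κ (g : G) : commutator G →* commutator G where
  toFun x := cm x.1 g
  map_one' := Subtype.ext (by simp [cm, comm'])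
  map_mul' x y := Subtype.ext (by
    have hz := Subgroup.mem_center_iff.mp (ClassThree.central x.1 x.2 g) y.1
    show comm' (x.1 * y.1) g = comm' x.1 g * comm' y.1 g
    calc comm' (x.1 * y.1) g = y.1⁻¹ * (comm' x.1 g * y.1) * comm' y.1 g := by
          simp [comm', mul_assoc]
      _ = comm' x.1 g * comm' y.1 g := by rw [← hz]; simp)

lemma κ_apply (g : G) (x : commutator G) : κ g x = cm x.1 g := rfl

lemma κ_one (x : commutator G) : κ 1 x = 1 := Subtype.ext (by simp [κ, cm, comm'])

lemma κ_mul (g h : G) (x : commutator G) : κ (g * h) x = κ g x * κ h x :=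
  Subtype.ext (comm'_mul_right x.1 x.2 g h)

lemma κ_pow (g : G) (k : ℕ) (x : commutator G) : κ (g ^ k) x = κ g x ^ k := by
  induction k with
  | zero => simp [κ_one]
  | succ k ih => rw [pow_succ, κ_mul, ih, pow_succ]

lemma κ_κ (g h : G) (x : commutator G) : κ g (κ h x) = 1 := by
  refine Subtype.ext ?_
  have hz := Subgroup.mem_center_iff.mp (ClassThree.central x.1 x.2 h) g⁻¹
  show comm' (comm' x.1 h) g = 1
  rw [comm', mul_assoc _ g⁻¹, hz]
  simp

lemma cm_mul (A B g : G) : cm (A * B) g = cm A g * κ B (cm A g) * cm B g := by
  refine Subtype.ext ?_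
  show comm' (A * B) g = comm' A g * comm' (comm' A g) B * comm' B g
  simp [comm', mul_assoc]

lemma cm_pow (y g : G) (k : ℕ) :
    cm (y ^ k) g = cm y g ^ k * κ y (cm y g) ^ k.choose 2 := by
  induction k with
  | zero => exact Subtype.ext (by simp [cm, comm'])
  | succ k ih =>
    rw [pow_succ, cm_mul, ih, map_mul, map_pow, map_pow, κ_κ, one_pow, mul_one,
      Nat.choose_succ_succ', Nat.choose_one_right, pow_succ, pow_add]
    simp only [mul_assoc, mul_left_comm, mul_comm]

section Mark

variable {α : Type} [DecidableEq α] {A : Type*}

/-- The product of a prefix function over the positions of a letter. -/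
def mark [Monoid A] (a : α) : (List α → A) → List α → A
  | _, [] => 1
  | F, x :: w => (if x = a then F [] else 1) * mark a (fun u => F (x :: u)) w

lemma mark_append [Monoid A] (a : α) : ∀ (F : List α → A) (w : List α) (x : α),
    mark a F (w ++ [x]) = mark a F w * if x = a then F w else 1
  | F, [], x => by simp [mark]
  | F, y :: w, x => by simp only [List.cons_append, mark, mark_append a _ w, mul_assoc]

lemma mark_one [Monoid A] (a : α) (w : List α) : mark a (fun _ => (1 : A)) w = 1 := by
  induction w using List.reverseRecOn with
  | nil => rfl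
  | append_singleton w x ih => rw [mark_append, ih]; simp

lemma mark_mul [CommMonoid A] (a : α) (F F' : List α → A) (w : List α) :
    mark a (fun u => F u * F' u) w = mark a F w * mark a F' w := by
  induction w using List.reverseRecOn with
  | nil => simp [mark]
  | append_singleton w x ih =>
    simp only [mark_append, ih]
    split_ifs
    · exact mul_mul_mul_comm _ _ _ _
    · simp

lemma map_mark [Monoid A] {B : Type*} [Monoid B] (φ : A →* B) (a : α) (F : List α → A)
    (w : List α) : φ (mark a F w) = mark a (fun u => φ (F u)) w := by
  induction w using List.reverseRecOn with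
  | nil => exact map_one φ
  | append_singleton w x ih => rw [mark_append, mark_append, map_mul, ih, apply_ite φ, map_one]

lemma mark_pow_cnt [Monoid A] (z : A) (a b : α) (w : List α) :
    mark a (fun u => z ^ cnt (eqb b) u) w = z ^ sub2 b a w := by
  induction w using List.reverseRecOn with
  | nil => simp [mark, sub2, psum]
  | append_singleton w x ih =>
    rw [mark_append, ih, show sub2 b a (w ++ [x]) = sub2 b a w + _ from psum_append _ _ _, pow_add]
    by_cases hx : x = a <;> simp [hx]

lemma mark_pow_sub2 [Monoid A] (z : A) (a b d : α) (w : List α) :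
    mark a (fun u => z ^ sub2 b d u) w = z ^ sub3 b d a w := by
  induction w using List.reverseRecOn with
  | nil => simp [mark, sub3, psum]
  | append_singleton w x ih =>
    rw [mark_append, ih,
      show sub3 b d a (w ++ [x]) = sub3 b d a w + _ from psum_append _ _ _, pow_add]
    by_cases hx : x = a <;> simp [hx]

omit [DecidableEq α] in
/-- A power by a quantity known modulo every positive integer. -/
lemma Good.pow [Group A] [Finite A] {k : List α → ℕ}
    (hk : ∀ n, 0 < n → Good (fun w => (k w : ZMod n))) (z : A) : Good (fun w => z ^ k w) := by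
  have hn : 0 < Nat.card A := Nat.card_pos
  have : NeZero (Nat.card A) := ⟨hn.ne'⟩
  refine ((hk _ hn).comp fun t => z ^ t.val).congr fun w => ?_
  rw [ZMod.val_natCast, pow_mod_natCard]

end Mark

variable {α : Type} [DecidableEq α]

/-- Functions of the letter counts and of the pair counts of the shape met in collection. -/
inductive Deg : (List α → commutator G) → Prop
  | one : Deg fun _ => 1
  | mul {F F'} : Deg F → Deg F' → Deg fun u => F u * F' u
  | lin (x : commutator G) (b : α) : Deg fun u => x ^ cnt (eqb b) u
  | quad (z : commutator G) (hz : ∀ g, κ g z = 1) (b d : α) : Deg fun u => z ^ sub2 b d u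

lemma Deg.congr {F F' : List α → commutator G} (h : Deg F) (e : ∀ u, F u = F' u) : Deg F' :=
  funext e ▸ h

lemma Deg.bil (z : commutator G) (hz : ∀ g, κ g z = 1) (b d : α) :
    Deg fun u => z ^ (cnt (eqb b) u * cnt (eqb d) u) := by
  by_cases h : b = d
  · subst h
    refine (((Deg.quad z hz b b).mul (Deg.quad z hz b b)).mul (Deg.lin z b)).congr fun u => ?_
    rw [← pow_add, ← pow_add, two_self]
    congr 1
    generalize cnt (eqb b) u = y
    induction y with
    | zero => rfl
    | succ y hy => rw [Nat.choose_succ_succ', Nat.choose_one_right]; linarith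
  · refine ((Deg.quad z hz b d).mul (Deg.quad z hz d b)).congr fun u => ?_
    rw [← pow_add, two_shuffle h]

variable (f : α → G)

/-- The ordered product of the letters, each as often as it occurs. -/
def collect (l : List α) (u : List α) : G := (l.map fun y => f y ^ cnt (eqb y) u).prod

lemma deg_κ_collect (x : commutator G) (b : α) :
    ∀ l : List α, Deg fun u => κ (collect f l u) x ^ cnt (eqb b) u
  | [] => Deg.one.congr fun u => by simp [collect, κ_one]
  | y :: l => by
    refine ((Deg.bil (κ (f y) x) (fun g => κ_κ g _ x) y b).mul (deg_κ_collect x b l)).congr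
      fun u => ?_
    rw [show collect f (y :: l) u = f y ^ cnt (eqb y) u * collect f l u from List.prod_cons,
      κ_mul, κ_pow, mul_pow, ← pow_mul]

lemma deg_cm_collect (g : G) : ∀ l : List α, Deg fun u => cm (collect f l u) g
  | [] => Deg.one.congr fun u => Subtype.ext (by simp [collect, cm, comm'])
  | y :: l => by
    refine ((((Deg.lin (cm (f y) g) y).mul
      (Deg.quad (κ (f y) (cm (f y) g)) (fun h => κ_κ h _ _) y y)).mul
      (deg_κ_collect f (cm (f y) g) y l)).mul (deg_cm_collect g l)).congr fun u => ?_
    rw [show collect f (y :: l) u = f y ^ cnt (eqb y) u * collect f l u from List.prod_cons,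
      cm_mul, cm_pow, map_mul, map_pow, map_pow, κ_κ, one_pow, mul_one, two_self]

variable [Finite α] [Finite G]

lemma Deg.good {F : List α → commutator G} (h : Deg F) (a : α) :
    Good (fun w => mark a F w) ∧
      ∀ (a' : α) (g : G), Good (fun w => mark a' (fun u => κ g (mark a F u)) w) := by
  induction h with
  | one =>
    refine ⟨(Good.const 1).congr fun w => (mark_one a w).symm, fun a' g => ?_⟩
    exact (Good.const 1).congr fun w => by simp [mark_one]
  | mul _ _ ih ih' =>
    refine ⟨(ih.1.comp₂ ih'.1 fun x y => x * y).congr fun w => (mark_mul a _ _ w).symm,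
      fun a' g => ?_⟩
    refine ((ih.2 a' g).comp₂ (ih'.2 a' g) fun x y => x * y).congr fun w => ?_
    simp only [mark_mul, map_mul]
  | lin x b =>
    refine ⟨(Good.pow (fun _ hn => sub2_good hn b a) x).congr fun w =>
      (mark_pow_cnt x a b w).symm, fun a' g => ?_⟩
    refine (Good.pow (fun _ hn => sub3_good hn b a a') (κ g x)).congr fun w => ?_
    simp only [mark_pow_cnt, map_pow, mark_pow_sub2]
  | quad z hz b d =>
    refine ⟨(Good.pow (fun _ hn => sub3_good hn b d a) z).congr fun w =>
      (mark_pow_sub2 z a b d w).symm, fun a' g => ?_⟩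
    refine (Good.const 1).congr fun w => ?_
    simp only [mark_pow_sub2, map_pow, hz, one_pow, mark_one]

/-- The part of a list after a letter. -/
def after (a : α) : List α → List α
  | [] => []
  | y :: l => if y = a then l else after a l

omit [Finite α] [Finite G] [ClassThree G] in
lemma collect_append_of_notMem (l : List α) (u : List α) (a : α) (ha : a ∉ l) :
    collect f l (u ++ [a]) = collect f l u := by
  refine congrArg List.prod (List.map_congr_left fun y hy => ?_)
  have : a ≠ y := fun e => ha (e ▸ hy)
  simp [cnt_append, eqb, this]

omit [Finite α] [Finite G] [ClassThree G] in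
lemma collect_mul (a : α) (u : List α) : ∀ l : List α, l.Nodup → a ∈ l →
    collect f l u * f a =
      collect f l (u ++ [a]) * comm' (collect f (after a l) u) (f a)
  | [], _, h => absurd h List.not_mem_nil
  | y :: l, hd, h => by
    obtain ⟨hy, hd⟩ := List.nodup_cons.mp hd
    have e : ∀ v, collect f (y :: l) v = f y ^ cnt (eqb y) v * collect f l v :=
      fun v => List.prod_cons
    by_cases hya : y = a
    · subst hya
      rw [e, e, collect_append_of_notMem f l u y hy, after, if_pos rfl, cnt_append]
      simp [eqb, pow_succ, comm', mul_assoc]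
    · have ha : a ∈ l := (List.mem_cons.mp h).resolve_left (Ne.symm hya)
      rw [e, e, mul_assoc, collect_mul a u l hd ha, after, if_neg hya, cnt_append]
      simp [eqb, Ne.symm hya, mul_assoc]

/-- The value of a word in a group of class three has height at most one in each fibre. -/
theorem prod_good : Good (fun w : List α => (w.map f).prod) := by
  have := Fintype.ofFinite α
  let L : List α := (Finset.univ : Finset α).toList
  let D : α → List α → commutator G := fun a u => cm (collect f (after a L) u) (f a)
  have hD : ∀ a, Deg (D a) := fun a => deg_cm_collect f (f a) _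
  let R₁ : List α → commutator G := fun w => (L.map fun a => mark a (D a) w).prod
  let R₂ : List α → commutator G := fun w =>
    (L.map fun a' => (L.map fun a => mark a' (fun u => κ (f a') (mark a (D a) u)) w).prod).prod
  have hR₁ : Good R₁ := Good.listProd L _ fun a _ => ((hD a).good a).1
  have hR₂ : Good R₂ :=
    Good.listProd L _ fun a' _ => Good.listProd L _ fun a _ => ((hD a).good a).2 a' (f a')
  have hP : Good (fun w => collect f L w) :=
    Good.listProd L _ fun y _ =>
      Good.pow (fun n hn => cnt_mod_good (eqb y) n hn) (f y)
  refine ((hP.comp₂ (hR₁.comp₂ hR₂ fun x y => x * y) fun p r => p * r.1)).congr fun w => ?_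
  -- collection, one letter at a time
  have hsum : ∀ (F : α → List α → commutator G) (w : List α) (x : α),
      (L.map fun a => mark a (F a) (w ++ [x])).prod =
        (L.map fun a => mark a (F a) w).prod * F x w := by
    intro F w x
    simp only [L, Finset.prod_map_toList, mark_append, Finset.prod_mul_distrib,
      Finset.prod_ite_eq, Finset.mem_univ, if_true]
  have hκR₂ : ∀ g w, κ g (R₂ w) = 1 := by
    intro g w
    simp only [R₂, L, Finset.prod_map_toList, map_prod, map_mark, κ_κ, mark_one,
      Finset.prod_const_one]
  induction w using List.reverseRecOn with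
  | nil =>
    simp [collect, R₁, R₂, mark, cnt]
  | append_singleton w x ih =>
    have h1 : R₁ (w ++ [x]) = R₁ w * D x w := hsum D w x
    have h2 : R₂ (w ++ [x]) = R₂ w * κ (f x) (R₁ w) := by
      have := hsum
      simp only [R₂, R₁, L, Finset.prod_map_toList, mark_append, Finset.prod_mul_distrib,
        map_prod]
      congr 1
      rw [Finset.prod_comm]
      simp
    have h3 : κ (f x) (R₁ w * R₂ w) = κ (f x) (R₁ w) := by rw [map_mul, hκR₂, mul_one]
    have hc : (R₁ (w ++ [x]) * R₂ (w ++ [x])) =
        D x w * ((R₁ w * R₂ w) * κ (f x) (R₁ w * R₂ w)) := by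
      rw [h1, h2, h3]
      simp only [mul_assoc, mul_left_comm, mul_comm]
    rw [hc, List.map_append, List.prod_append, ← ih]
    simp only [List.map_cons, List.map_nil, List.prod_singleton, Subgroup.coe_mul]
    have hmove := collect_mul f x w L (Finset.nodup_toList _) (by simp [L])
    show collect f L (w ++ [x]) * (comm' (collect f (after x L) w) (f x) *
        ((R₁ w).1 * (R₂ w).1 * comm' ((R₁ w).1 * (R₂ w).1) (f x))) =
      collect f L w * ((R₁ w).1 * (R₂ w).1) * f x
    rw [← mul_assoc, ← hmove]
    simp [comm', mul_assoc]

end Vale.Agent.P329
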