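import Vale.Agent.P329.PrimeCount

/-!
P329: position counts by the residues of several weights modulo a prime.  A count is recovered
modulo `n` from a multiple of it modulo `p * n`.
-/

namespace Vale.Agent.P329

variable {α : Type}

lemma Good.sum {A ι : Type*} [AddCommMonoid A] [Finite A] (s : Finset ι) (F : ι → List α → A)
    (h : ∀ i ∈ s, Good (F i)) : Good (fun w => ∑ i ∈ s, F i w) := by
  classical
  induction s using Finset.induction with
  | empty => exact (Good.const 0).congr fun _ => by simp
  | insert i s hi ih =>
    exact ((h i (by simp)).comp₂ (ih fun j hj => h j (by simp [hj])) (· + ·)).congr fun w => by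
      simp [Finset.sum_insert hi]

lemma good_div {p n : ℕ} (hp : 0 < p) (hn : 0 < n) {S : List α → ℕ}
    (h : Good (fun w : List α => ((p * S w : ℕ) : ZMod (p * n)))) :
    Good (fun w : List α => (S w : ZMod n)) := by
  have : NeZero (p * n) := ⟨(Nat.mul_pos hp hn).ne'⟩
  refine (h.comp fun z => ((z.val / p : ℕ) : ZMod n)).congr fun w => ?_
  rw [ZMod.val_natCast, Nat.mul_mod_mul_left, Nat.mul_div_cancel_left _ hp, ZMod.natCast_mod]

variable [DecidableEq α] {p : ℕ} [Fact p.Prime]

lemma sum_posc (τ : α → ZMod p) (x : α) (w : List α) :
    ∑ c : ZMod p, posc τ x c w = cnt (fun a => decide (a = x)) w := by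
  induction w using List.reverseRecOn with
  | nil => simp [posc, pcount, psum, cnt]
  | append_singleton w a ih =>
    simp only [posc, pcount_append, Finset.sum_add_distrib, cnt_append, decide_eq_true_eq] at ih ⊢
    rw [ih]
    congr 1
    by_cases h : a = x <;> simp [h]

variable [Finite α]

/-- The positions of a letter with a given residue of the prefix weight are counted at height one,
modulo every number. -/
theorem posc_good (τ : α → ZMod p) (x : α) (c : ZMod p) (n : ℕ) (hn : 0 < n) :
    Good (fun w : List α => (posc τ x c w : ZMod n)) := by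
  have hp : 0 < p := (Fact.out : p.Prime).pos
  have : NeZero n := ⟨hn.ne'⟩
  by_cases hx : τ x = 0
  · exact posc_good_zero τ hx c
  refine good_div hp hn ?_
  have : NeZero (p * n) := ⟨(Nat.mul_pos hp hn).ne'⟩
  let S : ZMod p → List α → ZMod (p * n) := fun d w => (posc τ x d w : ZMod (p * n))
  have hd : ∀ (k : ℕ), Good (fun w => S c w - S (c - k * τ x) w) := by
    intro k
    induction k with
    | zero => exact (Good.const 0).congr fun w => by simp
    | succ k ih =>
      refine (ih.comp₂ (posc_good_diff (n := p * n) τ hx (c - k * τ x)) (· + ·)).congr fun w => ?_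
      have e : c - ((k + 1 : ℕ) : ZMod p) * τ x = c - k * τ x - τ x := by push_cast; ring
      show S c w - S (c - k * τ x) w + (S (c - k * τ x) w - S (c - k * τ x - τ x) w) = _
      rw [e]
      ring
  have hsum := Good.sum (Finset.univ : Finset (ZMod p)) _ fun k _ => hd k.val
  refine (hsum.comp₂ (cnt_mod_good (fun a => decide (a = x)) (p * n) (Nat.mul_pos hp hn))
    (· + ·)).congr fun w => ?_
  have e : ∑ k : ZMod p, S (c - (k.val : ZMod p) * τ x) w = ∑ d : ZMod p, S d w :=
    Equiv.sum_comp ((Equiv.mulRight₀ (τ x) hx).trans (Equiv.subLeft c)) (fun d => S d w) ▸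
      Finset.sum_congr rfl fun k _ => by simp
  rw [Finset.sum_sub_distrib, e, Finset.sum_const, Finset.card_univ, ZMod.card, nsmul_eq_mul,
    ← sum_posc τ x w]
  simp only [S]
  push_cast
  ring

/-- The prefix has all the prescribed residues. -/
def hasRes : List ((α → ZMod p) × ZMod p) → List α → Bool
  | [], _ => true
  | (τ, c) :: L, u => decide (pwt τ u = c) && hasRes L u

omit [DecidableEq α] [Finite α] in
lemma pwt_lin (τ σ : α → ZMod p) (l : ZMod p) (u : List α) :
    pwt (fun a => τ a + l * σ a) u = pwt τ u + l * pwt σ u := by
  induction u with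
  | nil => simp [pwt]
  | cons a u ih =>
    simp only [pwt, List.map_cons, List.sum_cons] at ih ⊢
    rw [ih]
    ring

omit [DecidableEq α] [Finite α] in
lemma line_count (τ σ : α → ZMod p) (a b : ZMod p) (L : List ((α → ZMod p) × ZMod p))
    (u : List α) :
    p * (if hasRes ((τ, a) :: (σ, b) :: L) u = true then 1 else 0) +
        (if hasRes L u = true then 1 else 0) =
      (∑ l : ZMod p,
        if hasRes ((fun x => τ x + l * σ x, a + l * b) :: L) u = true then 1 else 0) +
        if hasRes ((σ, b) :: L) u = true then 1 else 0 := by
  simp only [hasRes, Bool.and_eq_true, decide_eq_true_eq, pwt_lin]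
  by_cases hL : hasRes L u = true
  swap
  · simp [hL]
  simp only [hL, and_true, if_true]
  by_cases hb : pwt σ u = b
  · simp only [hb, and_true, if_true, add_left_inj, Finset.sum_const, Finset.card_univ,
      ZMod.card, smul_eq_mul]
  · rw [if_neg (fun h => hb h.2), if_neg hb, mul_zero, zero_add, add_zero]
    have hne : pwt σ u - b ≠ 0 := sub_ne_zero.mpr hb
    rw [Finset.sum_eq_single (-(pwt τ u - a) / (pwt σ u - b))]
    · rw [if_pos]
      field_simp
      ring
    · intro l _ hl
      rw [if_neg]
      intro e
      exact hl (by rw [eq_div_iff hne]; linear_combination e)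
    · exact fun h => absurd (Finset.mem_univ _) h

/-- The same for any number of simultaneous weights. -/
theorem pcount_good (x : α) : ∀ (k : ℕ) (L : List ((α → ZMod p) × ZMod p)), L.length = k →
    ∀ n : ℕ, 0 < n → Good (fun w : List α => (pcount x (hasRes L) w : ZMod n))
  | 0, L, hL, n, hn => by
    obtain rfl := List.length_eq_zero_iff.mp hL
    refine (cnt_mod_good (fun a => decide (a = x)) n hn).congr fun w => congrArg Nat.cast ?_
    induction w using List.reverseRecOn with
    | nil => simp [pcount, psum, cnt]
    | append_singleton w a ih => simp [pcount_append, cnt_append, hasRes, ih]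
  | 1, L, hL, n, hn => by
    obtain ⟨⟨τ, c⟩, rfl⟩ := List.length_eq_one_iff.mp hL
    exact (posc_good τ x c n hn).congr fun w => by simp [posc, hasRes]
  | k + 2, L, hL, n, hn => by
    match L, hL with
    | (τ, a) :: (σ, b) :: L, hL =>
      have hk : L.length = k := by simpa using hL
      have hp : 0 < p := (Fact.out : p.Prime).pos
      refine good_div hp hn ?_
      have hN : 0 < p * n := Nat.mul_pos hp hn
      have : NeZero (p * n) := ⟨hN.ne'⟩
      have h1 := Good.sum (Finset.univ : Finset (ZMod p)) _ fun l _ =>
        pcount_good x (k + 1) ((fun y => τ y + l * σ y, a + l * b) :: L) (by simp [hk]) (p * n) hN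
      refine ((h1.comp₂ (pcount_good x (k + 1) ((σ, b) :: L) (by simp [hk]) (p * n) hN)
        (· + ·)).comp₂ (pcount_good x k L hk (p * n) hN) (· - ·)).congr fun w => ?_
      have key : p * pcount x (hasRes ((τ, a) :: (σ, b) :: L)) w + pcount x (hasRes L) w =
          (∑ l : ZMod p, pcount x (hasRes ((fun y => τ y + l * σ y, a + l * b) :: L)) w) +
            pcount x (hasRes ((σ, b) :: L)) w := by
        induction w using List.reverseRecOn with
        | nil => simp [pcount, psum]
        | append_singleton w y ih =>
          simp only [pcount_append, Finset.sum_add_distrib]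
          by_cases hy : y = x
          · simp only [hy, true_and]
            have := line_count τ σ a b L w
            linarith
          · simp only [hy, false_and, if_false, Finset.sum_const_zero, add_zero]
            exact ih
      have := congrArg (fun t : ℕ => (t : ZMod (p * n))) key
      push_cast at this ⊢
      linear_combination -this

end Vale.Agent.P329
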