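import Vale.Agent.P329.LocalDivisor
import Vale.Agent.P329.Counts

/-!
P329: weights modulo a prime.  The number of positions of a letter at which the weight of the
prefix has a given residue is computed modulo every number by languages of height at most one.
-/

namespace Vale.Agent.P329

variable {α : Type} {p : ℕ}

/-- The weight of a word modulo `p`. -/
def pwt (τ : α → ZMod p) (w : List α) : ZMod p := (w.map τ).sum

lemma pwt_append (τ : α → ZMod p) (u v : List α) : pwt τ (u ++ v) = pwt τ u + pwt τ v := by
  simp [pwt]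

lemma pwt_flatten (τ : α → ZMod p) (u : List α) :
    ∀ k : ℕ, pwt τ (List.replicate k u).flatten = k * pwt τ u
  | 0 => by simp [pwt]
  | k + 1 => by
    rw [List.replicate_succ, List.flatten_cons, pwt_append, pwt_flatten τ u k]
    push_cast
    ring

section Machine

variable {n : ℕ} (τ : α → ZMod p) (P R : α → Bool)

/-- The flag: whether the current excursion started with a letter of the first kind. -/
def flagStep (r : ZMod p) (f : Bool) (a : α) : Bool := if r = 0 then P a else f

/-- Returns to residue zero are counted, except those closing an excursion from the first kind to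
the second kind. -/
def eStep (s : ZMod p × ZMod n × Bool) (a : α) : ZMod p × ZMod n × Bool :=
  if s.1 + τ a = 0 then
    (0, (if (flagStep P s.1 s.2.2 a && R a) = true then s.2.1 else s.2.1 + 1), false)
  else (s.1 + τ a, s.2.1, flagStep P s.1 s.2.2 a)

/-- The flag of a run, which does not depend on the layer. -/
def flagRun : ZMod p → Bool → List α → Bool
  | _, f, [] => f
  | r, f, a :: w => flagRun (r + τ a) (if r + τ a = 0 then false else flagStep P r f a) w

variable {τ P R}

lemma eStep_fst (s : ZMod p × ZMod n × Bool) (a : α) : (eStep τ P R s a).1 = s.1 + τ a := by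
  unfold eStep
  split_ifs with h <;> simp [h]

lemma eRun_fst : ∀ (w : List α) (s : ZMod p × ZMod n × Bool),
    (w.foldl (eStep τ P R) s).1 = s.1 + pwt τ w
  | [], s => by simp [pwt]
  | a :: w, s => by
    rw [List.foldl_cons, eRun_fst w, eStep_fst]
    simp [pwt, add_assoc]

lemma eRun_flag : ∀ (w : List α) (s : ZMod p × ZMod n × Bool),
    (w.foldl (eStep τ P R) s).2.2 = flagRun τ P s.1 s.2.2 w
  | [], _ => rfl
  | a :: w, s => by
    rw [List.foldl_cons, eRun_flag w, eStep_fst, flagRun]
    congr 1
    unfold eStep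
    split_ifs <;> rfl

lemma flagRun_mono : ∀ (w : List α) (r : ZMod p),
    flagRun τ P r false w = true → flagRun τ P r true w = true
  | [], _, h => by simp [flagRun] at h
  | a :: w, r, h => by
    rw [flagRun] at h ⊢
    unfold flagStep at h ⊢
    split_ifs at h ⊢
    exacts [h, h, flagRun_mono w _ h]

lemma eStep_layer [NeZero n] (s : ZMod p × ZMod n × Bool) (a : α)
    (h : eStep τ P R s a ≠ (0, 0, false)) :
    s.2.1.val ≤ (eStep τ P R s a).2.1.val ∧ ((eStep τ P R s a).2.1.val = s.2.1.val →
      s.1 + τ a = 0 → flagStep P s.1 s.2.2 a = true ∧ R a = true) := by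
  unfold eStep at h ⊢
  by_cases h0 : s.1 + τ a = 0
  · rw [if_pos h0] at h ⊢
    by_cases hf : (flagStep P s.1 s.2.2 a && R a) = true
    · rw [if_pos hf]
      refine ⟨le_rfl, ?_⟩
      exact fun _ _ => Bool.and_eq_true_iff.mp hf
    · rw [if_neg hf] at h ⊢
      have hne : s.2.1 + 1 ≠ 0 := fun e => h (by rw [e])
      have hv : (s.2.1 + 1).val = s.2.1.val + 1 := by
        have hlt := ZMod.val_lt s.2.1
        have e : s.2.1 + 1 = ((s.2.1.val + 1 : ℕ) : ZMod n) := by
          rw [Nat.cast_add, ZMod.natCast_zmod_val, Nat.cast_one]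
        rcases (show s.2.1.val + 1 ≤ n by omega).lt_or_eq with hl | hl
        · rw [e, ZMod.val_natCast, Nat.mod_eq_of_lt hl]
        · exact absurd (by rw [e, hl, ZMod.natCast_self]) hne
      show s.2.1.val ≤ (s.2.1 + 1).val ∧ ((s.2.1 + 1).val = s.2.1.val → _)
      exact ⟨by omega, fun he => absurd he (by omega)⟩
  · rw [if_neg h0]
    exact ⟨le_rfl, fun _ h' => absurd h' h0⟩

/-- A run on which the layer is constant. -/
def Quiet : ZMod p × ZMod n × Bool → List α → Prop
  | _, [] => True
  | s, a :: w => (s.1 + τ a = 0 → flagStep P s.1 s.2.2 a = true ∧ R a = true) ∧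
      Quiet (eStep τ P R s a) w

lemma quiet_append : ∀ (u v : List α) (s : ZMod p × ZMod n × Bool),
    Quiet (τ := τ) (P := P) (R := R) s (u ++ v) ↔
      Quiet (τ := τ) (P := P) (R := R) s u ∧
        Quiet (τ := τ) (P := P) (R := R) (u.foldl (eStep τ P R) s) v
  | [], v, s => by simp [Quiet]
  | a :: u, v, s => by simp only [List.cons_append, Quiet, List.foldl_cons, quiet_append u v, and_assoc]

lemma quiet_cons (s : ZMod p × ZMod n × Bool) (a : α) (w : List α) :
    Quiet (τ := τ) (P := P) (R := R) s (a :: w) ↔
      (s.1 + τ a = 0 → flagStep P s.1 s.2.2 a = true ∧ R a = true) ∧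
        Quiet (τ := τ) (P := P) (R := R) (eStep τ P R s a) w := Iff.rfl

lemma layer_quiet [NeZero n] : ∀ (w : List α) (s : ZMod p × ZMod n × Bool),
    Avoids (eStep τ P R) (0, 0, false) s w →
      s.2.1.val ≤ (w.foldl (eStep τ P R) s).2.1.val ∧
        ((w.foldl (eStep τ P R) s).2.1.val = s.2.1.val → Quiet (τ := τ) (P := P) (R := R) s w)
  | [], s, _ => ⟨le_rfl, fun _ => trivial⟩
  | a :: w, s, ⟨h, hw⟩ => by
    obtain ⟨h1, h2⟩ := eStep_layer s a h
    obtain ⟨h3, h4⟩ := layer_quiet w _ hw
    rw [List.foldl_cons]
    exact ⟨h1.trans h3, fun e => ⟨h2 (by omega), h4 (by omega)⟩⟩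

lemma dead : ∀ (w : List α) (s : ZMod p × ZMod n × Bool), s.1 ≠ 0 → s.2.2 = false →
    Quiet (τ := τ) (P := P) (R := R) s w →
      (w.foldl (eStep τ P R) s).1 ≠ 0 ∧ (w.foldl (eStep τ P R) s).2.2 = false
  | [], _, h, hf, _ => ⟨h, hf⟩
  | a :: w, s, h, hf, ⟨hq, hw⟩ => by
    have h0 : s.1 + τ a ≠ 0 := fun e => by
      have := (hq e).1
      simp [flagStep, h, hf] at this
    rw [List.foldl_cons]
    exact dead w _ (by rw [eStep_fst]; exact h0) (by simp [eStep, h0, flagStep, h, hf]) hw

theorem eStep_noCycle [Fact p.Prime] [NeZero n]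
    (hPR : ∀ a, τ a ≠ 0 → ¬(P a = true ∧ R a = true)) :
    NoCycle (eStep (n := n) τ P R) (0, 0, false) := by
  intro q u k _ hk hav hfix
  have hsplit : ∀ i j : ℕ, (List.replicate (i + j) u).flatten =
      (List.replicate i u).flatten ++ (List.replicate j u).flatten := fun i j => by
    rw [List.replicate_add, List.flatten_append]
  have hquiet : Quiet (τ := τ) (P := P) (R := R) q (List.replicate (k + k) u).flatten := by
    have h1 := (layer_quiet _ q hav).2 (by rw [hfix])
    rw [hsplit, quiet_append, hfix]
    exact ⟨h1, h1⟩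
  have hkd : (k : ZMod p) * pwt τ u = 0 := by
    have := congrArg Prod.fst hfix
    rwa [eRun_fst, pwt_flatten, add_eq_left] at this
  by_cases hd : pwt τ u = 0
  · -- no drift
    have hr : ∀ s : ZMod p × ZMod n × Bool, (u.foldl (eStep τ P R) s).1 = s.1 := fun s => by
      rw [eRun_fst, hd, add_zero]
    have hlay : (u.foldl (eStep τ P R) q).2.1 = q.2.1 := by
      obtain ⟨k, rfl⟩ := Nat.exists_eq_succ_of_ne_zero hk.ne'
      rw [List.replicate_succ, List.flatten_cons] at hav hfix
      rw [avoids_append] at hav
      rw [List.foldl_append] at hfix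
      have e1 := (layer_quiet _ _ hav.1).1
      have e2 := (layer_quiet _ _ hav.2).1
      rw [hfix] at e2
      exact ZMod.val_injective n (le_antisymm e2 e1)
    let φ : Bool → Bool := fun f => flagRun τ P q.1 f u
    have hiter : ∀ j : ℕ, ((List.replicate j u).flatten.foldl (eStep τ P R) q).1 = q.1 ∧
        ((List.replicate j u).flatten.foldl (eStep τ P R) q).2.2 = φ^[j] q.2.2 := by
      intro j
      induction j with
      | zero => exact ⟨rfl, rfl⟩
      | succ j ih =>
        rw [hsplit j 1, List.replicate_one, List.flatten_singleton, List.foldl_append]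
        exact ⟨(hr _).trans ih.1, by rw [eRun_flag, ih.1, ih.2, Function.iterate_succ_apply']⟩
    have hk' := (hiter k).2
    rw [hfix] at hk'
    have hflag : φ q.2.2 = q.2.2 := by
      have hm : φ false = true → φ true = true := flagRun_mono u q.1
      obtain ⟨k, rfl⟩ := Nat.exists_eq_succ_of_ne_zero hk.ne'
      have hcase : φ (φ q.2.2) = φ q.2.2 := by
        have key : ∀ f : Bool, φ (φ f) = φ f := by
          intro f
          cases f <;> cases h1 : φ false <;> cases h2 : φ true <;>
            first | rfl | exact h1 | exact h2 | exact Bool.noConfusion ((hm h1).symm.trans h2)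
        exact key _
      have : φ^[k + 1] q.2.2 = φ q.2.2 := by
        rw [Function.iterate_succ_apply]
        exact Function.iterate_fixed hcase k
      rw [this] at hk'
      exact hk'.symm
    refine Prod.ext (hr q) (Prod.ext hlay ?_)
    rw [eRun_flag]
    exact hflag
  · exfalso
    have hpk : p ≤ k := by
      rcases mul_eq_zero.mp hkd with h | h
      · exact Nat.le_of_dvd hk ((ZMod.natCast_eq_zero_iff _ _).mp h)
      · exact absurd h hd
    obtain ⟨a, hau, ha⟩ : ∃ a ∈ u, τ a ≠ 0 := by
      by_contra h
      push Not at h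
      exact hd (List.sum_eq_zero fun x hx => by
        obtain ⟨a, ha, rfl⟩ := List.mem_map.mp hx
        exact h a ha)
    obtain ⟨x, y, e⟩ := List.append_of_mem hau
    have hj : ∀ t : ZMod p, ∃ j : ℕ, j < k ∧ (j : ZMod p) * pwt τ u = t := fun t =>
      ⟨(t / pwt τ u).val, (ZMod.val_lt _).trans_le hpk, by
        rw [ZMod.natCast_zmod_val, div_mul_cancel₀ _ hd]⟩
    obtain ⟨j1, hj1, ej1⟩ := hj (-(q.1 + pwt τ x))
    obtain ⟨j2, hj2, ej2⟩ := hj (-(q.1 + pwt τ x + τ a))
    obtain ⟨m, hm⟩ := Nat.exists_eq_add_of_le (show j1 + 1 ≤ k + j2 by omega)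
    obtain ⟨l, hl⟩ := Nat.exists_eq_add_of_le (show k + j2 + 1 ≤ k + k by omega)
    -- the exit by `a` and a later arrival by `a`
    let W := y ++ (List.replicate m u).flatten ++ x
    have hW : (List.replicate (k + k) u).flatten =
        ((List.replicate j1 u).flatten ++ x) ++ a :: (W ++ a :: (y ++ (List.replicate l u).flatten)) := by
      rw [hl, hsplit (k + j2 + 1) l, hsplit (k + j2) 1, hm, hsplit (j1 + 1) m, hsplit j1 1]
      simp only [List.replicate_one, List.flatten_singleton, W]
      nth_rewrite 2 [e]
      nth_rewrite 3 [e]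
      simp only [List.append_assoc, List.cons_append]
    rw [hW] at hquiet
    obtain ⟨hq2, hq2'⟩ := (quiet_append _ _ _).mp ((quiet_cons _ _ _).mp
      ((quiet_append _ _ _).mp hquiet).2).2
    have hq3 := ((quiet_cons _ _ _).mp hq2').1
    let s1 := ((List.replicate j1 u).flatten ++ x).foldl (eStep τ P R) q
    have hs1 : s1.1 = 0 := by
      show (((List.replicate j1 u).flatten ++ x).foldl (eStep τ P R) q).1 = 0
      rw [eRun_fst, pwt_append, pwt_flatten, ej1]
      ring
    have hW2 : (W.foldl (eStep τ P R) (eStep τ P R s1 a)).1 + τ a = 0 := by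
      have h1 : pwt τ ((List.replicate (k + j2) u).flatten ++ x) =
          pwt τ ((List.replicate j1 u).flatten ++ x) + τ a + pwt τ W := by
        have : (List.replicate (k + j2) u).flatten ++ x =
            ((List.replicate j1 u).flatten ++ x) ++ [a] ++ W := by
          rw [hm, hsplit (j1 + 1) m, hsplit j1 1]
          simp only [List.replicate_one, List.flatten_singleton, W]
          nth_rewrite 2 [e]
          simp only [List.append_assoc, List.cons_append, List.nil_append]
        rw [this, pwt_append, pwt_append]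
        simp [pwt]
      rw [pwt_append, pwt_flatten, pwt_append, pwt_flatten, Nat.cast_add, add_mul, hkd, ej1, ej2]
        at h1
      rw [eRun_fst, eStep_fst, hs1]
      linear_combination -h1
    obtain ⟨-, hR⟩ := hq3 hW2
    have hP : P a = true := by
      by_contra hP
      have hs1f : (eStep τ P R s1 a).2.2 = false := by
        unfold eStep
        rw [if_neg (by rw [hs1, zero_add]; exact ha), flagStep, if_pos hs1]
        simpa using hP
      obtain ⟨hd1, hd2⟩ := dead W (eStep τ P R s1 a) (by rw [eStep_fst, hs1, zero_add]; exact ha)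
        hs1f hq2
      have hflag := (hq3 hW2).1
      rw [flagStep, if_neg hd1, hd2] at hflag
      exact Bool.noConfusion hflag
    exact hPR a ha ⟨hP, hR⟩

theorem eRun_good [Finite α] [Fact p.Prime] [NeZero n]
    (hPR : ∀ a, τ a ≠ 0 → ¬(P a = true ∧ R a = true)) (s : ZMod p × ZMod n × Bool) :
    Good (fun w : List α => w.foldl (eStep τ P R) s) :=
  run_good_of_avoidable (avoidable_of_noCycle (eStep_noCycle hPR)) s

end Machine

section Counts

variable [DecidableEq α]

/-- The positions of `x` whose prefix passes a test. -/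
def pcount (x : α) (T : List α → Bool) (w : List α) : ℕ :=
  psum (fun u a => if a = x ∧ T u = true then 1 else 0) w

lemma pcount_append (x : α) (T : List α → Bool) (w : List α) (a : α) :
    pcount x T (w ++ [a]) = pcount x T w + if a = x ∧ T w = true then 1 else 0 :=
  psum_append _ w a

/-- The positions of `x` at which the prefix has weight `c`. -/
def posc (τ : α → ZMod p) (x : α) (c : ZMod p) (w : List α) : ℕ :=
  pcount x (fun u => decide (pwt τ u = c)) w

variable [Finite α] [Fact p.Prime] {n : ℕ} [NeZero n]

lemma pwt_singleton (τ : α → ZMod p) (a : α) : pwt τ [a] = τ a := by simp [pwt]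

theorem posc_good_zero (τ : α → ZMod p) {x : α} (hx : τ x = 0) (c : ZMod p) :
    Good (fun w : List α => (posc τ x c w : ZMod n)) := by
  let A : α → Bool := fun a => decide (τ a = 0) && !decide (a = x)
  let B : α → Bool := fun a => decide (τ a = 0)
  have hA := eRun_good (n := n) (τ := τ) (P := A) (R := A) (fun a ha => by simp [A, ha])
    ((-c, 0, false) : ZMod p × ZMod n × Bool)
  have hB := eRun_good (n := n) (τ := τ) (P := B) (R := B) (fun a ha => by simp [B, ha])
    ((-c, 0, false) : ZMod p × ZMod n × Bool)
  refine (hA.comp₂ hB fun s t => s.2.1 - t.2.1).congr fun w => ?_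
  suffices h : ∃ i : ZMod n,
      w.foldl (eStep τ A A) ((-c, 0, false) : ZMod p × ZMod n × Bool) =
        (-c + pwt τ w, i + (posc τ x c w : ZMod n), false) ∧
      w.foldl (eStep τ B B) ((-c, 0, false) : ZMod p × ZMod n × Bool) =
        (-c + pwt τ w, i, false) by
    obtain ⟨i, h1, h2⟩ := h
    rw [h1, h2]
    ring
  induction w using List.reverseRecOn with
  | nil => exact ⟨0, by simp [pwt, posc, pcount, psum], by simp [pwt]⟩
  | append_singleton w a ih =>
    obtain ⟨i, h1, h2⟩ := ih
    have e : (pwt τ w = c) ↔ -c + pwt τ w = 0 := by rw [neg_add_eq_zero, eq_comm]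
    simp only [List.foldl_append, h1, h2, List.foldl_cons, List.foldl_nil, pwt_append,
      pwt_singleton, posc, pcount_append, decide_eq_true_eq, e, ← add_assoc]
    unfold eStep flagStep
    by_cases h0 : -c + pwt τ w = 0
    · by_cases ht : τ a = 0
      · refine ⟨i, ?_⟩
        by_cases hax : a = x
        · subst hax
          simp [A, B, h0, ht, add_assoc]
        · simp [A, B, h0, ht, hax]
      · have hax : a ≠ x := fun h => ht (h ▸ hx)
        refine ⟨i, ?_⟩
        simp [A, B, h0, ht, hax]
    · by_cases h1' : -c + pwt τ w + τ a = 0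
      · refine ⟨i + 1, ?_⟩
        simp [A, B, h0, h1', add_assoc, add_comm (1 : ZMod n)]
      · refine ⟨i, ?_⟩
        simp [A, B, h0, h1']

theorem posc_good_diff (τ : α → ZMod p) {x : α} (hx : τ x ≠ 0) (c : ZMod p) :
    Good (fun w : List α => (posc τ x c w : ZMod n) - (posc τ x (c - τ x) w : ZMod n)) := by
  let X : α → Bool := fun a => decide (a = x)
  let Y : α → Bool := fun a => !decide (a = x)
  have hA := eRun_good (n := n) (τ := τ) (P := X) (R := Y)
    (fun a _ => by by_cases h : a = x <;> simp [X, Y, h])
    ((-c, 0, false) : ZMod p × ZMod n × Bool)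
  have hB := eRun_good (n := n) (τ := τ) (P := Y) (R := X)
    (fun a _ => by by_cases h : a = x <;> simp [X, Y, h])
    ((-c, 0, !decide (-c = 0)) : ZMod p × ZMod n × Bool)
  refine (hA.comp₂ hB fun s t => t.2.1 - s.2.1 + if s.2.2 = true then 1 else 0).congr fun w => ?_
  suffices h : ∃ (i : ZMod n) (f : Bool), (-c + pwt τ w = 0 → f = false) ∧
      w.foldl (eStep τ X Y) ((-c, 0, false) : ZMod p × ZMod n × Bool) =
        (-c + pwt τ w, i, f) ∧
      w.foldl (eStep τ Y X) ((-c, 0, !decide (-c = 0)) : ZMod p × ZMod n × Bool) =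
        (-c + pwt τ w, i + (posc τ x c w : ZMod n) - (posc τ x (c - τ x) w : ZMod n) -
          (if f = true then 1 else 0), !decide (-c + pwt τ w = 0) && !f) by
    obtain ⟨i, f, -, h1, h2⟩ := h
    rw [h1, h2]
    ring
  induction w using List.reverseRecOn with
  | nil => exact ⟨0, false, fun _ => rfl, by simp [pwt], by simp [pwt, posc, pcount, psum]⟩
  | append_singleton w a ih =>
    obtain ⟨i, f, hf, h1, h2⟩ := ih
    have e : (pwt τ w = c) ↔ -c + pwt τ w = 0 := by rw [neg_add_eq_zero, eq_comm]
    have e' : (pwt τ w = c - τ x) ↔ -c + pwt τ w + τ x = 0 :=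
      ⟨fun h => by rw [h]; ring, fun h => by linear_combination h⟩
    simp only [List.foldl_append, h1, h2, List.foldl_cons, List.foldl_nil, pwt_append,
      pwt_singleton, posc, pcount_append, decide_eq_true_eq, e, e', ← add_assoc]
    unfold eStep flagStep
    by_cases h0 : -c + pwt τ w = 0
    · obtain rfl := hf h0
      by_cases ht : τ a = 0
      · have hax : a ≠ x := fun h => hx (h ▸ ht)
        refine ⟨i + 1, false, fun _ => rfl, ?_, ?_⟩ <;> simp [X, Y, h0, ht, hax] <;> ring
      · refine ⟨i, X a, ?_, ?_, ?_⟩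
        · simp [h0, ht]
        · simp [X, h0, ht]
        · by_cases hax : a = x
          · subst hax
            simp [X, Y, h0, ht]
            ring
          · simp [X, Y, h0, ht, hax]
    · by_cases h1' : -c + pwt τ w + τ a = 0
      · by_cases hax : a = x
        · subst hax
          refine ⟨i + 1, false, fun _ => rfl, ?_, ?_⟩ <;> cases f <;>
            simp [X, Y, h0, h1'] <;> ring
        · cases f
          · refine ⟨i + 1, false, fun _ => rfl, ?_, ?_⟩ <;> simp [X, Y, h0, h1', hax] <;> ring
          · refine ⟨i, false, fun _ => rfl, ?_, ?_⟩ <;> simp [X, Y, h0, h1', hax]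
      · refine ⟨i, f, fun h => absurd h h1', ?_, ?_⟩
        · simp [h0, h1']
        · by_cases hax : a = x
          · subst hax
            simp [h0, h1']
          · simp [h0, h1', hax]

end Counts

end Vale.Agent.P329
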