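import Vale.Agent.P329.Nilpotent
import Vale.Agent.P329.Extension

/-!
P329: subdirect products of groups of class three and of extensions of abelian groups by
elementary abelian groups.
-/

namespace Vale.Agent.P329

open scoped commutatorElement

variable {α : Type} [Finite α]

theorem classThree_of_lowerSeries {H : Type*} [Group H]
    (hH : (⊤ : Subgroup H).lowerCentralSeries 3 = ⊥) : ClassThree H := by
  refine ⟨fun x hx g => Subgroup.mem_center_iff.mpr fun h => ?_⟩
  have hx' : x⁻¹ ∈ (⊤ : Subgroup H).lowerCentralSeries 1 := by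
    rw [Subgroup.top_lowerCentralSeries_one]
    exact inv_mem hx
  have hc : comm' x g ∈ (⊤ : Subgroup H).lowerCentralSeries 2 := by
    have e : comm' x g = ⁅x⁻¹, g⁻¹⁆ := by simp [comm', commutatorElement_def]
    rw [e, Subgroup.lowerCentralSeries_succ]
    exact Subgroup.commutator_mem_commutator hx' (Subgroup.mem_top _)
  have h3 : ⁅comm' x g, h⁆ ∈ (⊤ : Subgroup H).lowerCentralSeries 3 := by
    rw [Subgroup.lowerCentralSeries_succ]
    exact Subgroup.commutator_mem_commutator hc (Subgroup.mem_top _)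
  rw [hH, Subgroup.mem_bot, commutatorElement_eq_one_iff_mul_comm] at h3
  exact h3.symm

variable {G : Type*} [Group G] [Finite G]

theorem quot_good_prime (N : Subgroup G) [N.Normal]
    (hN : (⊤ : Subgroup G).lowerCentralSeries 3 ≤ N ∨
      ∃ (p : ℕ) (K : Subgroup G), p.Prime ∧ K.Normal ∧ N ≤ K ∧
        (∀ x ∈ K, ∀ y ∈ K, ⁅x, y⁆ ∈ N) ∧ (∀ x y : G, ⁅x, y⁆ ∈ K) ∧ ∀ x : G, x ^ p ∈ K)
    (f : α → G) :
    Good (fun w : List α => ((w.map f).prod : G ⧸ N)) := by
  classical
  let π := QuotientGroup.mk' N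
  suffices Good (fun w : List α => (w.map (π ∘ f)).prod) from this.congr fun w => by
    rw [← List.map_map, ← map_list_prod]; rfl
  have hsurj : Function.Surjective π := QuotientGroup.mk'_surjective N
  rcases hN with h | ⟨p, K, hp, hKn, -, hKK, hGK, hpK⟩
  · have hq : (⊤ : Subgroup (G ⧸ N)).lowerCentralSeries 3 = ⊥ := by
      rw [← Subgroup.map_top_of_surjective π hsurj,
        ← Subgroup.map_lowerCentralSeries, Subgroup.map_eq_bot_iff, QuotientGroup.ker_mk']
      exact h
    have := classThree_of_lowerSeries hq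
    exact prod_good (π ∘ f)
  · have : Fact p.Prime := ⟨hp⟩
    have : (K.map π).Normal := hKn.map π hsurj
    refine extension_good (p := p) (K.map π) ?_ ?_ ?_ (π ∘ f)
    · rintro _ ⟨x, hx, rfl⟩ _ ⟨y, hy, rfl⟩
      rw [← commutatorElement_eq_one_iff_mul_comm, ← map_commutatorElement]
      exact (QuotientGroup.eq_one_iff _).mpr (hKK x hx y hy)
    · intro a b
      obtain ⟨x, rfl⟩ := hsurj a
      obtain ⟨y, rfl⟩ := hsurj b
      exact ⟨_, hGK x y, map_commutatorElement π x y⟩
    · intro a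
      obtain ⟨x, rfl⟩ := hsurj a
      exact ⟨_, hpK x, map_pow π x p⟩

theorem subdirect_good_prime (hG : ∀ g : G, g ≠ 1 → ∃ N : Subgroup G, N.Normal ∧ g ∉ N ∧
      ((⊤ : Subgroup G).lowerCentralSeries 3 ≤ N ∨
        ∃ (p : ℕ) (K : Subgroup G), p.Prime ∧ K.Normal ∧ N ≤ K ∧
          (∀ x ∈ K, ∀ y ∈ K, ⁅x, y⁆ ∈ N) ∧ (∀ x y : G, ⁅x, y⁆ ∈ K) ∧ ∀ x : G, x ^ p ∈ K))
    (f : α → G) : Good (fun w : List α => (w.map f).prod) := by
  classical
  choose N hNn hgN hN using hG
  let Φ : G → ∀ g : {g : G // g ≠ 1}, G ⧸ N g.1 g.2 := fun x g => (x : G ⧸ N g.1 g.2)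
  have hinj : Function.Injective Φ := by
    intro x y hxy
    by_contra hne
    have hg : x⁻¹ * y ≠ 1 := fun e => hne (inv_mul_eq_one.mp e)
    exact hgN _ hg (QuotientGroup.eq.mp (congrFun hxy ⟨_, hg⟩))
  have hgood : Good (fun w : List α => Φ (w.map f).prod) :=
    Good.pi fun g => by
      have := hNn g.1 g.2
      exact quot_good_prime (N g.1 g.2) (hN g.1 g.2) f
  refine fun p => (hgood (Φ p)).of_eq fun w => ?_
  exact ⟨fun h => hinj h, fun h => congrArg Φ h⟩

end Vale.Agent.P329
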