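import Vale.Agent.P329.SubdirectPrime

/-!
P329: an aperiodic monoid fed by the running value of a group keeps height one.
-/

namespace Vale.Agent.P329

variable {α : Type} {G : Type} [Group G]

/-- The word annotated by the values of its prefixes, starting from a given value. -/
def sigG (f : α → G) : G → List α → List (G × α)
  | _, [] => []
  | g, a :: w => (g, a) :: sigG f (g * f a) w

lemma sigG_append (f : α → G) : ∀ (u : List α) (g : G) (v : List α),
    sigG f g (u ++ v) = sigG f g u ++ sigG f (g * (u.map f).prod) v
  | [], g, v => by simp [sigG]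
  | a :: u, g, v => by simp [sigG, sigG_append f u, mul_assoc]

lemma sigG_split (f : α → G) : ∀ (s : List (G × α)) (w : List α) (g : G) (t : List (G × α)),
    sigG f g w = s ++ t →
      ∃ u v, w = u ++ v ∧ sigG f g u = s ∧ sigG f (g * (u.map f).prod) v = t
  | [], w, g, t, h => ⟨[], w, rfl, rfl, by simpa using h⟩
  | x :: s, [], g, t, h => by simp [sigG] at h
  | x :: s, a :: w, g, t, h => by
    simp only [sigG, List.cons_append, List.cons.injEq] at h
    obtain ⟨u, v, rfl, hu, hv⟩ := sigG_split f s w (g * f a) t h.2
    exact ⟨a :: u, v, rfl, by simp [sigG, h.1, hu], by simpa [mul_assoc] using hv⟩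

lemma sigG_eq_zip (f : α → G) : ∀ (w : List α) (g : G),
    sigG f g w = List.zip (List.scanl (fun x y => x * y) g (w.map f)) w
  | [], g => by simp [sigG]
  | a :: w, g => by simp [sigG, sigG_eq_zip f w]

variable [Finite α] [Finite G] {f : α → G}

lemma sigG_preimage (hf : Good (fun w : List α => (w.map f).prod)) :
    ∀ e : GenExp (G × α), e.height ≤ 0 → ∀ g : G,
      HeightLE 1 (lg fun w => sigG f g w ∈ e.lang)
  | .zero, _, g => HeightLE.empty.of_eq fun w =>
      iff_of_false (Language.notMem_zero _) (Language.notMem_zero _)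
  | .one, _, g => HeightLE.nilWord.of_eq fun w => by
      rw [Language.mem_one]
      show w = [] ↔ sigG f g w = []
      cases w <;> simp [sigG]
  | .letter (x, a), _, g => by
      classical
      by_cases hx : x = g
      · subst hx
        refine (HeightLE.letter a).of_eq fun w => ?_
        show w = [a] ↔ sigG f x w = [(x, a)]
        rcases w with _ | ⟨b, _ | ⟨c, w⟩⟩ <;> simp [sigG]
      · refine HeightLE.empty.of_eq fun w => iff_of_false (Language.notMem_zero _) fun h => ?_
        have h' : sigG f g w = [(x, a)] := h
        rcases w with _ | ⟨b, w⟩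
        · simp [sigG] at h'
        · simp only [sigG, List.cons.injEq, Prod.mk.injEq] at h'
          exact hx h'.1.1.symm
  | .union P Q, h, g => by
      obtain ⟨h1, h2⟩ := max_le_iff.mp h
      exact ((sigG_preimage hf P h1 g).union (sigG_preimage hf Q h2 g)).of_eq fun w => Iff.rfl
  | .compl P, h, g => (sigG_preimage hf P h g).compl.of_eq fun w => Iff.rfl
  | .concat P Q, h, g => by
      obtain ⟨h1, h2⟩ := max_le_iff.mp h
      let piece : G → Language α := fun x =>
        (lg fun u => u ∈ (lg fun w => sigG f g w ∈ P.lang) ∧ u ∈ (lg fun w => (w.map f).prod = x)) *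
          (lg fun v => sigG f (g * x) v ∈ Q.lang)
      refine (HeightLE.iUnion piece fun x => ((sigG_preimage hf P h1 g).inter
        ((hf x).of_eq fun w => Iff.rfl)).concat (sigG_preimage hf Q h2 (g * x))).of_eq fun w => ?_
      show w ∈ unionOf piece ↔ sigG f g w ∈ P.lang * Q.lang
      constructor
      · rintro ⟨x, hw⟩
        obtain ⟨u, ⟨hu, hux⟩, v, hv, rfl⟩ := Language.mem_mul.mp hw
        have hux' : (u.map f).prod = x := hux
        rw [sigG_append, hux']
        exact Language.mem_mul.mpr ⟨_, hu, _, hv, rfl⟩
      · intro hw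
        obtain ⟨s, hs, t, ht, e⟩ := Language.mem_mul.mp hw
        obtain ⟨u, v, rfl, hu, hv⟩ := sigG_split f s w g t e.symm
        subst hu hv
        exact ⟨(u.map f).prod, Language.mem_mul.mpr ⟨u, ⟨hs, rfl⟩, v, ht, rfl⟩⟩
  | .star P, h, g => by simp [GenExp.height] at h

/-- An aperiodic monoid reading the letters together with the running value of the group. -/
theorem wreath_good (hf : Good (fun w : List α => (w.map f).prod)) {M : Type} [Monoid M] [Finite M]
    (hM : Aper M) (μ : G × α → M) :
    Good (fun w : List α => (((sigG f 1 w).map μ).prod, (w.map f).prod)) := by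
  refine Good.prodMk (fun m => ?_) hf
  obtain ⟨e, he, hel⟩ := aper_starFree (Nat.card M) M le_rfl hM (G × α) μ m
  refine (sigG_preimage hf e he 1).of_eq fun w => ?_
  show sigG f 1 w ∈ e.lang ↔ ((sigG f 1 w).map μ).prod = m
  rw [hel]
  rfl

end Vale.Agent.P329
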